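import Crest.Agent.N250.Defs

/-!
# Row 250, transformations (helper52): tangent vectors of a track and the derivative `td`
-/

set_option autoImplicit false
open MeasureTheory Set Filter Topology
open scoped ContDiff InnerProductSpace
open Crest.GeometryTopology.MCF

noncomputable section

namespace Crest.Agent.N250.Tr

variable {G : Type} [NormedAddCommGroup G] [NormedSpace ℝ G]

theorem fd_sp {φ : ST → ℝ} {p : ST} (h : DifferentiableAt ℝ φ p) (v : E) :
    fderiv ℝ φ p (v, 0) = ⟪gradX φ p.1 p.2, v⟫_ℝ := by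
  have h1 : HasFDerivAt (fun y : E => φ (y, p.2))
      ((fderiv ℝ φ p).comp (ContinuousLinearMap.inl ℝ E ℝ)) p.1 :=
    HasFDerivAt.comp p.1 (f := fun y : E => (y, p.2)) h.hasFDerivAt (hasFDerivAt_prodMk_left p.1 p.2)
  simp [gradX, gradient, h1.fderiv, InnerProductSpace.toDual_symm_apply]

theorem fd_tm {φ : ST → ℝ} {p : ST} (h : DifferentiableAt ℝ φ p) :
    fderiv ℝ φ p (0, 1) = dT φ p := by
  have h1 : HasFDerivAt (fun s : ℝ => φ (p.1, s))
      ((fderiv ℝ φ p).comp (ContinuousLinearMap.inr ℝ E ℝ)) p.2 :=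
    HasFDerivAt.comp p.2 (f := fun s : ℝ => (p.1, s)) h.hasFDerivAt
      (hasFDerivAt_prodMk_right p.1 p.2)
  simp [dT, h1.hasDerivAt.deriv]

theorem fd_st {φ : ST → ℝ} {p : ST} (h : DifferentiableAt ℝ φ p) (v : E) (s : ℝ) :
    fderiv ℝ φ p (v, s) = ⟪gradX φ p.1 p.2, v⟫_ℝ + s * dT φ p := by
  have : ((v, s) : ST) = (v, 0) + s • ((0 : E), (1 : ℝ)) := by simp
  rw [this, map_add, map_smul, fd_sp h, fd_tm h, smul_eq_mul]

variable {F : Mv} {W : Set ST} {φ : ST → ℝ} {p : ST}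

theorem loc_at (h : F.Loc W φ) (hp : p ∈ W) : ContDiffAt ℝ ∞ φ p :=
  h.sm.contDiffAt (h.isOpen.mem_nhds hp)

theorem loc_diff (h : F.Loc W φ) (hp : p ∈ W) : DifferentiableAt ℝ φ p :=
  (loc_at h hp).differentiableAt (by simp)

/-- the kernel of `dφ` lies in the tangent cone of the track -/
theorem ker_mem (h : F.Loc W φ) (hp : p ∈ W) (hM : p ∈ F.M) {w : ST}
    (hw : fderiv ℝ φ p w = 0) : w ∈ tangentConeAt ℝ F.M p := by
  have hs : HasStrictFDerivAt φ (fderiv ℝ φ p) p :=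
    (loc_at h hp).hasStrictFDerivAt (by simp)
  have hr : (fderiv ℝ φ p).range = ⊤ := by
    rw [eq_top_iff]
    intro r _
    have hn : ‖gradX φ p.1 p.2‖ ^ 2 ≠ 0 := pow_ne_zero _ (norm_ne_zero_iff.2 (h.ne p hp))
    refine ⟨((r / ‖gradX φ p.1 p.2‖ ^ 2) • gradX φ p.1 p.2, 0), ?_⟩
    change fderiv ℝ φ p _ = r
    rw [fd_sp (loc_diff h hp), inner_smul_right, real_inner_self_eq_norm_sq]
    exact div_mul_cancel₀ _ hn
  have h1 := hs.to_implicitFunction hr
  have h0 := hs.implicitFunction_apply_image hr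
  have h2 : ∀ᶠ z in 𝓝 (0 : (fderiv ℝ φ p).ker), hs.implicitFunction φ _ hr (φ p) z ∈ F.M := by
    have e1 : ∀ᶠ z in 𝓝 (0 : (fderiv ℝ φ p).ker),
        φ (hs.implicitFunction φ _ hr (φ p) z) = φ p :=
      (Continuous.prodMk_right (φ p)).continuousAt.tendsto.eventually
        (hs.map_implicitFunction_eq hr)
    have e2 : ∀ᶠ z in 𝓝 (0 : (fderiv ℝ φ p).ker), hs.implicitFunction φ _ hr (φ p) z ∈ W :=
      h1.hasFDerivAt.continuousAt.tendsto.eventually (by rw [h0]; exact h.isOpen.mem_nhds hp)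
    filter_upwards [e1, e2] with z a b
    exact (h.mem _ b).2 (a.trans ((h.mem p hp).1 hM))
  have h3 := (h1.hasFDerivAt.hasFDerivWithinAt
    (s := {z | hs.implicitFunction φ _ hr (φ p) z ∈ F.M})).mapsTo_tangent_cone
    (show (⟨w, hw⟩ : (fderiv ℝ φ p).ker) ∈ _ by rw [tangentConeAt_of_mem_nhds h2]; trivial)
  rw [h0] at h3
  exact tangentConeAt_mono (by rintro _ ⟨z, hz, rfl⟩; exact hz) h3

theorem n_unit (hF : F.Reg) (hM : p ∈ F.M) : ‖F.n p‖ = 1 := by
  obtain ⟨W, φ, hp, h⟩ := hF p hM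
  rw [h.n_eq p hp hM, norm_smul, norm_inv, norm_norm]
  exact inv_mul_cancel₀ (norm_ne_zero_iff.2 (h.ne p hp))

theorem n_n (hF : F.Reg) (hM : p ∈ F.M) : ⟪F.n p, F.n p⟫_ℝ = 1 := by
  rw [real_inner_self_eq_norm_sq, n_unit hF hM]; norm_num

/-- tangent vectors of the track: normal component of the space part `= s V` -/
theorem tan_mem (hF : F.Reg) (hM : p ∈ F.M) {v : E} {s : ℝ} (hv : ⟪F.n p, v⟫_ℝ = s * F.V p) :
    ((v, s) : ST) ∈ tangentConeAt ℝ F.M p := by
  obtain ⟨W, φ, hp, h⟩ := hF p hM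
  refine ker_mem h hp hM ?_
  have hn : ‖gradX φ p.1 p.2‖ ≠ 0 := norm_ne_zero_iff.2 (h.ne p hp)
  rw [h.n_eq p hp hM, h.V_eq p hp hM, inner_smul_left] at hv
  rw [fd_st (loc_diff h hp)]
  simp only [conj_trivial] at hv
  field_simp at hv
  linarith

theorem n_PL (hF : F.Reg) (hM : p ∈ F.M) (v : E) : ⟪F.n p, F.PL p v⟫_ℝ = 0 := by
  simp [Mv.PL, inner_sub_right, inner_smul_right, n_unit hF hM]

theorem PL_mem (hF : F.Reg) (hM : p ∈ F.M) (v : E) :
    ((F.PL p v, 0) : ST) ∈ tangentConeAt ℝ F.M p :=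
  tan_mem hF hM (by simp [n_PL hF hM])

theorem vel_mem (hF : F.Reg) (hM : p ∈ F.M) :
    ((F.V p • F.n p, 1) : ST) ∈ tangentConeAt ℝ F.M p :=
  tan_mem hF hM (by simp [inner_smul_right, n_unit hF hM])

theorem td_eq {f : ST → G} {f' : ST →L[ℝ] G} (h : HasFDerivWithinAt f f' F.M p) {w : ST}
    (hw : w ∈ tangentConeAt ℝ F.M p) : F.td f p w = f' w :=
  h.differentiableWithinAt.hasFDerivWithinAt.unique_on h hw

theorem td_congr {f g : ST → G} (hM : p ∈ F.M) (h : f =ᶠ[𝓝[F.M] p] g) : F.td f p = F.td g p :=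
  h.fderivWithin_eq_of_mem hM

theorem D_def (F : Mv) (a : Fin 3) (f : ST → ℝ) (p : ST) :
    F.D a f p = F.td f p (F.PL p (ee a), 0) := rfl

theorem D_congr {f g : ST → ℝ} (hM : p ∈ F.M) (h : f =ᶠ[𝓝[F.M] p] g) (a : Fin 3) :
    F.D a f p = F.D a g p := by
  rw [D_def, D_def, td_congr hM h]

theorem ev_of_on {β : Type} {f g : ST → β} (h : ∀ q ∈ F.M, f q = g q) : f =ᶠ[𝓝[F.M] p] g :=
  eventually_nhdsWithin_of_forall h

theorem td_PL (f : ST → ℝ) (p : ST) (v : E) :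
    F.td f p (F.PL p v, 0) = ∑ b, v b * F.D b f p := by
  have : ((F.PL p v, 0) : ST) = ∑ b, v b • ((F.PL p (ee b), 0) : ST) := by
    refine Prod.ext ?_ (by simp [Prod.snd_sum])
    simp only [Prod.fst_sum, Prod.smul_fst, Mv.PL, smul_sub, Finset.sum_sub_distrib, smul_smul,
      ← Finset.sum_smul]
    congr 1
    · ext i; simp [Fin.sum_univ_three, ee]; fin_cases i <;> simp
    · congr 1
      simp [PiLp.inner_apply, ee]
  rw [this, map_sum]
  simp only [map_smul, smul_eq_mul, D_def]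

theorem sm_n (hF : F.Reg) : F.Sm F.n := by
  intro p hM
  obtain ⟨W, φ, hp, h⟩ := hF p hM
  have hg : ContDiffAt ℝ ∞ (fun q : ST => gradX φ q.1 q.2) p := by
    have h1 : ContDiffAt ℝ ∞ (fun q : ST => (InnerProductSpace.toDual ℝ E).symm
        ((fderiv ℝ φ q).comp (ContinuousLinearMap.inl ℝ E ℝ))) p :=
      (InnerProductSpace.toDual ℝ E).symm.contDiff.contDiffAt.comp p
        (((loc_at h hp).fderiv_right (m := ∞) (by simp)).clm_comp contDiffAt_const)
    refine h1.congr_of_eventuallyEq ?_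
    filter_upwards [h.isOpen.mem_nhds hp] with q hq
    apply ext_inner_right ℝ
    intro v
    rw [← fd_sp (loc_diff h hq)]
    simp [InnerProductSpace.toDual_symm_apply]
  have h2 : ContDiffAt ℝ ∞ (fun q : ST => ‖gradX φ q.1 q.2‖⁻¹ • gradX φ q.1 q.2) p :=
    ((hg.norm ℝ (h.ne p hp)).inv (norm_ne_zero_iff.2 (h.ne p hp))).smul hg
  refine h2.contDiffWithinAt.congr_of_eventuallyEq ?_ (h.n_eq p hp hM)
  filter_upwards [self_mem_nhdsWithin, mem_nhdsWithin_of_mem_nhds (h.isOpen.mem_nhds hp)]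
    with q a b using h.n_eq q b a

theorem sm_nu (hF : F.Reg) (a : Fin 3) : F.Sm (F.nu a) :=
  (EuclideanSpace.proj a : E →L[ℝ] ℝ).contDiff.comp_contDiffOn (sm_n hF)

theorem sm_D (hF : F.Reg) {f : ST → ℝ} (hf : F.Sm f) (a : Fin 3) : F.Sm (F.D a f) := by
  intro p hM
  rw [contDiffWithinAt_infty]
  intro m
  have h1 : ContDiffWithinAt ℝ ((m : ℕ∞ω) + 1) f F.M p := (hf p hM).of_le (by exact_mod_cast le_top)
  obtain ⟨u, hu, -, f', h2, h3⟩ := (contDiffWithinAt_succ_iff_hasFDerivWithinAt (by simp)).1 h1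
  rw [insert_eq_of_mem hM] at hu
  have h4 : ContDiffWithinAt ℝ m (fun q => ((F.PL q (ee a), 0) : ST)) F.M p := by
    have := (sm_n hF p hM).of_le (m := m) (by exact_mod_cast le_top)
    exact (contDiffWithinAt_const.sub ((this.inner ℝ contDiffWithinAt_const).smul this)).prodMk
      contDiffWithinAt_const
  have h5 := (h3.mono_of_mem_nhdsWithin hu).clm_apply h4
  have h6 : ∀ᶠ q in 𝓝[F.M] p, F.D a f q = f' q (F.PL q (ee a), 0) := by
    filter_upwards [self_mem_nhdsWithin, eventually_eventually_nhdsWithin.2 hu, hu] with q a1 a2 a3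
    exact td_eq ((h2 q a3).mono_of_mem_nhdsWithin a2) (PL_mem hF a1 _)
  exact h5.congr_of_eventuallyEq h6 (h6.self_of_nhdsWithin hM)

theorem sm_DL (hF : F.Reg) {f : ST → ℝ} (hf : F.Sm f) (l : List (Fin 3)) : F.Sm (F.DL l f) := by
  induction l with
  | nil => exact hf
  | cons a l ih => exact sm_D hF ih a

end Crest.Agent.N250.Tr

end
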