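import Crest.Agent.N250.Tr.Meas
import Crest.Agent.N250.Master

/-!
# Row 250, transformations (helper52): `para`, `rot`, `res`, `freeze`, `resc`, `unresc`, `flip`
-/

set_option autoImplicit false
open MeasureTheory Set Filter Topology
open scoped ContDiff InnerProductSpace Pointwise
open Crest.GeometryTopology.MCF

noncomputable section

namespace Crest.Agent.N250.Tr

variable {F G : Mv} {p : ST} {f g : ST → ℝ} {t : ℝ}

/-! ### no rotation -/

theorem Sim.sum_r {s : Sim} (hR : s.R = LinearIsometryEquiv.refl ℝ E) (a : Fin 3) (X : Fin 3 → ℝ) :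
    ∑ b, s.r a b * X b = X a := by
  simp [Sim.r, hR, ee]

theorem Sim.T_eq {s : Sim} (hR : s.R = LinearIsometryEquiv.refl ℝ E) (l : List (Fin 3)) :
    s.T F l f = F.DL l f := by
  induction l with
  | nil => rfl
  | cons a l ih =>
    funext q
    change ∑ b, s.r a b * F.D b (s.T F l f) q = F.D a (F.DL l f) q
    rw [Sim.sum_r hR a fun b => F.D b (s.T F l f) q, ih]

namespace Pull

variable {s : Sim} (h : Pull s F G) (hF : F.Reg) (hR : s.R = LinearIsometryEquiv.refl ℝ E)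
include h hR

theorem n0 (hp : p ∈ G.M) : G.n p = F.n (s.map p) := by rw [h.n_eq p hp, hR]; rfl

theorem nu0 (hp : p ∈ G.M) (a : Fin 3) : G.nu a p = F.nu a (s.map p) := by
  rw [Mv.nu, h.n0 hR hp]; rfl

include hF

theorem D0 (hf : F.Sm f) (hp : p ∈ G.M) (a : Fin 3) :
    G.D a (f ∘ s.map) p = s.c p.2 * F.D a f (s.map p) := by
  rw [h.D hF hf hp, Sim.sum_r hR a fun b => F.D b f (s.map p)]

theorem DL0 (hf : F.Sm f) (hp : p ∈ G.M) (l : List (Fin 3)) :
    G.DL l (f ∘ s.map) p = s.c p.2 ^ l.length * F.DL l f (s.map p) := by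
  rw [h.DL hF hf l p hp, Sim.T_eq hR]

theorem DL_nu0 (hp : p ∈ G.M) (l : List (Fin 3)) (a : Fin 3) :
    G.DL l (G.nu a) p = s.c p.2 ^ l.length * F.DL l (F.nu a) (s.map p) :=
  (DL_congr (fun _ hq => h.nu0 hR hq a) l p hp).trans (h.DL0 hF hR (sm_nu hF a) hp l)

theorem A0 (hp : p ∈ G.M) (a b : Fin 3) : G.A a b p = s.c p.2 * F.A a b (s.map p) := by
  exact (h.DL_nu0 hF hR hp [a] b).trans (by rw [List.length_singleton, pow_one]; rfl)

theorem jetLe0 (hf : F.Sm f) (hp : p ∈ G.M) {k : ℕ} {C : ℝ} :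
    G.JetLe (f ∘ s.map) k (s.c p.2 ^ k * C) p ↔ F.JetLe f k C (s.map p) := by
  refine forall_congr' fun l => forall_congr' fun hl => ?_
  rw [h.DL0 hF hR hf hp, hl, abs_mul, abs_of_pos (pow_pos (h.pos hp) _),
    mul_le_mul_iff_right₀ (pow_pos (h.pos hp) _)]

theorem nJet0 (hp : p ∈ G.M) {k : ℕ} {C : ℝ} :
    G.NJet k (s.c p.2 ^ k * C) p ↔ F.NJet k C (s.map p) := by
  refine forall_congr' fun a => forall_congr' fun l => forall_congr' fun hl => ?_
  rw [h.DL_nu0 hF hR hp, hl, abs_mul, abs_of_pos (pow_pos (h.pos hp) _),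
    mul_le_mul_iff_right₀ (pow_pos (h.pos hp) _)]

end Pull

/-- parabolic similarities preserve the mean curvature flow -/
theorem Pull.mcf {s : Sim} (h : Pull s F G) (hF : F.IsMCF) (hc : ∀ p ∈ s.U, deriv s.c p.2 = 0)
    (hθ : ∀ p ∈ s.U, deriv s.θ p.2 = s.c p.2 ^ 2) : G.IsMCF := by
  refine ⟨h.reg hF.1, fun p hp => ?_⟩
  have := (h.pos hp).ne'
  rw [h.V_eq p hp, h.H hF.1 hp, hc p (h.U hp), hθ p (h.U hp), hF.2 _ (h.M hp)]
  field_simp
  ring

theorem Pull.box {s : Sim} (h : Pull s F G) (hF : F.Reg) (hf : F.Sm f) (hp : p ∈ G.M)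
    (hc : deriv s.c p.2 = 0) (hθ : deriv s.θ p.2 = s.c p.2 ^ 2) :
    G.box (f ∘ s.map) p = s.c p.2 ^ 2 * F.box f (s.map p) := by
  simp only [Mv.box, Pi.sub_apply, h.Dt hF hf hp, h.lap hF hf hp, hc, hθ]
  ring

/-! ### `para` -/

def paraS (X : ST) (lam : ℝ) : Sim :=
  ⟨X.1, LinearIsometryEquiv.refl ℝ E, fun _ => lam⁻¹, fun t => X.2 + t / lam ^ 2, univ⟩

theorem paraS_map (X : ST) (lam : ℝ) (p : ST) :
    (paraS X lam).map p = (X.1 + lam⁻¹ • p.1, X.2 + p.2 / lam ^ 2) := rfl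

theorem paraS_θ (X : ST) (lam t : ℝ) : deriv (paraS X lam).θ t = lam⁻¹ ^ 2 := by
  simp [paraS, div_eq_mul_inv]

section para

variable (X : ST) {lam : ℝ} (hl : 0 < lam)
include hl

theorem pull_para (F : Mv) : Pull (paraS X lam) F (F.para X lam) where
  ok := ⟨isOpen_univ, fun _ _ => inv_pos.2 hl, fun _ _ => contDiffAt_const,
    fun _ _ => contDiffAt_const.add (contDiffAt_id.div_const _)⟩
  mem p := by simp [Mv.para, paraS, Sim.map]
  n_eq _ _ := rfl
  V_eq p _ := by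
    rw [paraS_θ]
    have := hl.ne'
    simp [Mv.para, paraS, Sim.map]
    field_simp

theorem para_reg (hF : F.Reg) : (F.para X lam).Reg := (pull_para X hl F).reg hF

theorem para_mcf (hF : F.IsMCF) : (F.para X lam).IsMCF :=
  (pull_para X hl F).mcf hF (fun _ _ => by simp [paraS]) fun _ _ => paraS_θ X lam _

theorem para_ar {Λ : ℝ} (hF : F.AR Λ) : (F.para X lam).AR Λ :=
  (pull_para X hl F).ar (fun _ => Or.inl fun _ => trivial) hF

theorem para_lgb {C : ℝ} (hF : F.Reg) (hL : LGB F C) : LGB (F.para X lam) C :=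
  (pull_para X hl F).lgb hF (fun _ => Or.inl fun _ => trivial) hL

theorem para_fl {I : Set ℝ} {Λ : ℝ} (hF : Fl F I Λ) :
    Fl (F.para X lam) {t | X.2 + t / lam ^ 2 ∈ I} Λ := by
  refine ⟨para_mcf X hl hF.mcf, fun p hp => hF.time _ hp, fun p hp hI => ?_, para_ar X hl hF.ar⟩
  exact (pull_para X hl F).proper hF.proper p hp ⟨trivial, trivial, hI.2⟩

theorem para_Fs (t : ℝ) (y : E) (σ : ℝ) : (F.para X lam).Fs t y σ
    = F.Fs (X.2 + t / lam ^ 2) (X.1 + lam⁻¹ • y) (σ / lam ^ 2) := by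
  rw [(pull_para X hl F).Fs fun _ => trivial]
  congr 1
  simp [paraS, div_eq_inv_mul]

theorem para_Fg (Y : ST) (r : ℝ) :
    (F.para X lam).Fg Y r = F.Fg (X.1 + lam⁻¹ • Y.1, X.2 + Y.2 / lam ^ 2) (r / lam) := by
  rw [Mv.Fg, Mv.Fg, para_Fs X hl, div_pow]
  congr 1
  ring

theorem para_reach (hp : p ∈ (F.para X lam).M) (ρ : ℝ) : (F.para X lam).Reach p ρ ↔
    F.Reach (X.1 + lam⁻¹ • p.1, X.2 + p.2 / lam ^ 2) (ρ / lam) := by
  rw [div_eq_inv_mul ρ]
  exact ⟨(pull_para X hl F).reach_of hp fun _ => trivial, (pull_para X hl F).reach hp⟩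

theorem para_H (hF : F.Reg) (hp : p ∈ (F.para X lam).M) :
    (F.para X lam).H p = lam⁻¹ * F.H (X.1 + lam⁻¹ • p.1, X.2 + p.2 / lam ^ 2) :=
  (pull_para X hl F).H hF hp

theorem para_A2 (hF : F.Reg) (hp : p ∈ (F.para X lam).M) :
    (F.para X lam).A2 p = lam⁻¹ ^ 2 * F.A2 (X.1 + lam⁻¹ • p.1, X.2 + p.2 / lam ^ 2) :=
  (pull_para X hl F).A2 hF hp

theorem para_nJet (hF : F.Reg) (hp : p ∈ (F.para X lam).M) {k : ℕ} {C : ℝ} :
    (F.para X lam).NJet k (lam⁻¹ ^ k * C) p ↔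
      F.NJet k C (X.1 + lam⁻¹ • p.1, X.2 + p.2 / lam ^ 2) :=
  (pull_para X hl F).nJet0 hF rfl hp

theorem para_dev (hF : F.Reg) (hp : p ∈ (F.para X lam).M) (Y : ST) : (F.para X lam).dev Y p
    = lam⁻¹ * F.dev ((paraS X lam).map Y) ((paraS X lam).map p) := by
  have h1 := (pull_para X hl F).xn hp Y.1
  have h2 := (pull_para X hl F).H hF hp
  have := hl.ne'
  rw [Mv.dev, Mv.dev, h2]
  change lam⁻¹ * _ = F.xn ((paraS X lam).map Y).1 _ at h1
  rw [← h1]
  simp only [paraS_map, add_sub_add_left_eq_sub, ← sub_div]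
  rcases eq_or_ne (Y.2 - p.2) 0 with h | h
  · simp [h, paraS]
  simp only [paraS]
  field_simp

theorem para_Phi (Y p : ST) :
    Phi Y p = lam⁻¹ ^ 2 * Phi ((paraS X lam).map Y) ((paraS X lam).map p) := by
  rw [Phi, Phi, Sim.gau_aff (s := paraS X lam) (t := 0) (inv_pos.2 hl)]
  congr 2
  simp only [paraS, Sim.map]
  ring

theorem para_int (t : ℝ) (u : E → ℝ) : ∫ x, u (X.1 + lam⁻¹ • x) ∂(F.para X lam).mu t
    = lam ^ 2 * ∫ x, u x ∂F.mu (X.2 + t / lam ^ 2) := by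
  simpa [paraS, Sim.aff] using (pull_para X hl F).int (t := t) (fun _ => trivial) u

theorem para_stI (f : ST → ℝ) (t₁ t₂ : ℝ) : (F.para X lam).stI (f ∘ (paraS X lam).map) t₁ t₂
    = ENNReal.ofReal (lam ^ 4) * F.stI f (X.2 + t₁ / lam ^ 2) (X.2 + t₂ / lam ^ 2) := by
  have h2 : 0 < lam ^ 2 := by positivity
  have e : ∀ t, ∫⁻ x, ENNReal.ofReal ((f ∘ (paraS X lam).map) (x, t)) ∂(F.para X lam).mu t
      = ENNReal.ofReal (lam ^ 2) * ∫⁻ x, ENNReal.ofReal (f (x, X.2 + t / lam ^ 2))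
        ∂F.mu (X.2 + t / lam ^ 2) := fun t => by
    simpa [paraS, Sim.map, Sim.aff] using (pull_para X hl F).lint' (t := t) (fun _ => trivial)
      fun x => ENNReal.ofReal (f (x, X.2 + t / lam ^ 2))
  let T : ℝ ≃ₜ ℝ := (Homeomorph.mulRight₀ (lam ^ 2)⁻¹ (inv_ne_zero h2.ne')).trans
    (Homeomorph.addLeft X.2)
  have hT : ∀ t, T t = X.2 + t / lam ^ 2 := fun t => rfl
  have hm : (volume : Measure ℝ).map T = ENNReal.ofReal (lam ^ 2) • volume := by
    change volume.map ((fun t => X.2 + t) ∘ fun t => t * (lam ^ 2)⁻¹) = _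
    rw [← Measure.map_map (by fun_prop) (by fun_prop),
      Real.map_volume_mul_right (inv_ne_zero h2.ne'), Measure.map_smul, map_add_left_eq_self]
    simp
  have hI : Ioo t₁ t₂ = T ⁻¹' Ioo (X.2 + t₁ / lam ^ 2) (X.2 + t₂ / lam ^ 2) := by
    ext t; simp [hT, div_lt_div_iff_of_pos_right h2]
  have he : MeasurableEmbedding T := T.toMeasurableEquiv.measurableEmbedding
  simp only [Mv.stI, e]
  rw [lintegral_const_mul' _ _ ENNReal.ofReal_ne_top, hI]
  have := he.lintegral_map (μ := volume.restrict (T ⁻¹' Ioo (X.2 + t₁ / lam ^ 2)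
    (X.2 + t₂ / lam ^ 2))) fun t => ∫⁻ x, ENNReal.ofReal (f (x, t)) ∂F.mu t
  simp only [hT] at this
  rw [← this, ← he.restrict_map, hm, Measure.restrict_smul, lintegral_smul_measure, smul_eq_mul,
    ← mul_assoc, ← ENNReal.ofReal_mul h2.le, ← pow_add]

theorem para_conv {α : Type} {l : Filter α} {Fk : α → Mv} {Ω : Set ST} (hc : Conv l Fk F Ω) :
    Conv l (fun k => (Fk k).para X lam) (F.para X lam) ((paraS X lam).map ⁻¹' Ω) := by
  simpa [paraS] using conv_pull (pull_para X hl F) (.of_forall fun k => pull_para X hl (Fk k)) hc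

theorem para_para (F : Mv) (Y : ST) {μ : ℝ} (hμ : 0 < μ) :
    (F.para X lam).para Y μ = F.para ((paraS X lam).map Y) (lam * μ) := by
  have e : ∀ p : ST, ((X.1 + lam⁻¹ • (Y.1 + μ⁻¹ • p.1), X.2 + (Y.2 + p.2 / μ ^ 2) / lam ^ 2) : ST)
      = (X.1 + lam⁻¹ • Y.1 + (lam * μ)⁻¹ • p.1,
        X.2 + Y.2 / lam ^ 2 + p.2 / (lam * μ) ^ 2) := fun p => by
    refine Prod.ext ?_ ?_
    · simp [smul_smul, add_assoc, mul_comm]
    · simp only; field_simp; ring
  simp only [Mv.para, paraS_map, mem_ofPred_eq, e, div_div, mul_comm lam μ]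

end para

theorem para_one (F : Mv) : F.para 0 1 = F := by simp [Mv.para]

theorem paraStmt : ParaStmt := by
  intro F I Λ m y lam hl hF
  have h2 : 0 < lam ^ 2 := by positivity
  refine ⟨⟨hF.tm.isOpen.preimage (by fun_prop), fun t ht => ?_, fun t ht s h1 h0 =>
    hF.tm.up _ ht _ (div_le_div_of_nonneg_right h1 h2.le) (div_neg_of_neg_of_pos h0 h2)⟩,
    by simpa using para_fl (y, 0) hl hF.fl, fun R z r hr hI hd x hx hz => ?_⟩
  · exact (div_neg_iff.1 (hF.tm.neg _ ht)).elim (fun h => absurd h.2 h2.not_gt) fun h => h.1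
  rw [para_Fg _ hl, para_Fg _ hl] at hd
  rw [para_reach _ hl hx]
  have e : (0 : ℝ) + -r ^ 2 / lam ^ 2 = -(r / lam) ^ 2 := by ring
  have := hF.as R (y + lam⁻¹ • z) (r / lam) (div_pos hr hl)
    (by rw [show -(m.L R * (r / lam)) ^ 2 = -(m.L R * r) ^ 2 / lam ^ 2 by ring]; exact hI)
    (by simpa [mul_div_assoc, div_right_comm] using hd) (y + lam⁻¹ • x) (by rw [← e]; exact hx)
    (by rw [dist_add_left, dist_smul₀, Real.norm_of_nonneg (inv_pos.2 hl).le, ← mul_div_assoc,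
      div_eq_inv_mul]; exact mul_lt_mul_of_pos_left hz (inv_pos.2 hl))
  simpa only [e, mul_div_assoc] using this

end Crest.Agent.N250.Tr

end
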