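import Crest.Agent.N250.Tr.Base

/-!
# Row 250, transformations (helper52): pull-back under a time dependent similarity

`s.map (x, t) = (x₀ + c t • R x, θ t)`.  `para`, `rot`, `res`, `freeze`, `resc`, `unresc` are
instances (file `Inst`).
-/

set_option autoImplicit false
open MeasureTheory Set Filter Topology
open scoped ContDiff InnerProductSpace
open Crest.GeometryTopology.MCF

noncomputable section

namespace Crest.Agent.N250.Tr

variable {F G : Mv} {p : ST} {f g : ST → ℝ}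

theorem sm_has {Y : Type} [NormedAddCommGroup Y] [NormedSpace ℝ Y] {f : ST → Y} (hf : F.Sm f)
    (hM : p ∈ F.M) : HasFDerivWithinAt f (F.td f p) F.M p :=
  ((hf p hM).differentiableWithinAt (by simp)).hasFDerivWithinAt

theorem D_lin {ι : Type} (hF : F.Reg) (hM : p ∈ F.M) (S : Finset ι) (r : ι → ℝ)
    {f : ι → ST → ℝ} (hf : ∀ i ∈ S, F.Sm (f i)) (a : Fin 3) :
    F.D a (fun q => ∑ i ∈ S, r i * f i q) p = ∑ i ∈ S, r i * F.D a (f i) p := by
  rw [D_def, td_eq (HasFDerivWithinAt.fun_sum fun i hi => (sm_has (hf i hi) hM).const_mul (r i))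
    (PL_mem hF hM _)]
  simp [D_def]

theorem sm_lin {ι : Type} (S : Finset ι) (r : ι → ℝ) {f : ι → ST → ℝ} (hf : ∀ i ∈ S, F.Sm (f i)) :
    F.Sm fun q => ∑ i ∈ S, r i * f i q :=
  ContDiffOn.sum fun i hi => contDiffOn_const.mul (hf i hi)

theorem D_tmul (hF : F.Reg) (hM : p ∈ F.M) {k : ℝ → ℝ} (hk : DifferentiableAt ℝ k p.2)
    (hf : F.Sm f) (a : Fin 3) : F.D a (fun q => k q.2 * f q) p = k p.2 * F.D a f p := by
  have h1 : HasFDerivWithinAt (fun q : ST => k q.2)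
      ((fderiv ℝ k p.2).comp (ContinuousLinearMap.snd ℝ E ℝ)) F.M p :=
    (hk.hasFDerivAt.comp p hasFDerivAt_snd).hasFDerivWithinAt
  rw [D_def, td_eq (h1.fun_mul (sm_has hf hM)) (PL_mem hF hM _)]
  simp [D_def]

theorem DL_congr (h : ∀ q ∈ F.M, f q = g q) (l : List (Fin 3)) :
    ∀ q ∈ F.M, F.DL l f q = F.DL l g q := by
  induction l with
  | nil => exact h
  | cons a l ih => exact fun q hq => D_congr hq (ev_of_on ih) a

theorem DL_lin {ι : Type} (hF : F.Reg) (S : Finset ι) (r : ι → ℝ)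
    {f : ι → ST → ℝ} (hf : ∀ i ∈ S, F.Sm (f i)) (l : List (Fin 3)) :
    ∀ p ∈ F.M, F.DL l (fun q => ∑ i ∈ S, r i * f i q) p = ∑ i ∈ S, r i * F.DL l (f i) p := by
  induction l with
  | nil => exact fun _ _ => rfl
  | cons a l ih =>
    intro p hp
    exact (D_congr hp (ev_of_on ih) a).trans (D_lin hF hp S r (fun i hi => sm_DL hF (hf i hi) l) a)

/-- a time dependent similarity, used on the open set `U` -/
structure Sim where
  x0 : E
  R : E ≃ₗᵢ[ℝ] E
  c : ℝ → ℝ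
  θ : ℝ → ℝ
  U : Set ST

namespace Sim

variable (s : Sim)

def map (p : ST) : ST := (s.x0 + s.c p.2 • s.R p.1, s.θ p.2)

/-- matrix of the rotation -/
def r (a b : Fin 3) : ℝ := s.R (ee a) b

structure Ok : Prop where
  isOpen : IsOpen s.U
  pos : ∀ p ∈ s.U, 0 < s.c p.2
  smc : ∀ p ∈ s.U, ContDiffAt ℝ ∞ s.c p.2
  smθ : ∀ p ∈ s.U, ContDiffAt ℝ ∞ s.θ p.2

variable {s}

theorem Ok.at (h : s.Ok) (hp : p ∈ s.U) : ContDiffAt ℝ ∞ s.map p :=
  (contDiffAt_const.add (((h.smc p hp).comp p contDiffAt_snd).smul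
    (s.R.contDiff.contDiffAt.comp p contDiffAt_fst))).prodMk ((h.smθ p hp).comp p contDiffAt_snd)

theorem Ok.fd (h : s.Ok) (hp : p ∈ s.U) (v : E) (t : ℝ) : fderiv ℝ s.map p (v, t) =
    (s.c p.2 • s.R v + (t * deriv s.c p.2) • s.R p.1, t * deriv s.θ p.2) := by
  have h1 := ((h.smc p hp).differentiableAt (by simp)).hasDerivAt.hasFDerivAt.comp p
    (hasFDerivAt_snd (𝕜 := ℝ) (E := E) (p := p))
  have h2 := ((h.smθ p hp).differentiableAt (by simp)).hasDerivAt.hasFDerivAt.comp p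
    (hasFDerivAt_snd (𝕜 := ℝ) (E := E) (p := p))
  have h3 := s.R.toContinuousLinearEquiv.hasFDerivAt.comp p
    (hasFDerivAt_fst (𝕜 := ℝ) (F := ℝ) (p := p))
  have h4 : HasFDerivAt s.map _ p := ((h1.fun_smul h3).const_add s.x0).prodMk h2
  rw [h4.fderiv]
  simp

theorem r_r (s : Sim) (e d : Fin 3) : ∑ a, s.r a e * s.r a d = if e = d then 1 else 0 := by
  have h : ∀ a e, s.r a e = s.R.symm (ee e) a := fun a e => by
    have := s.R.inner_map_map (ee a) (s.R.symm (ee e))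
    simpa [r, ee, EuclideanSpace.inner_single_left, EuclideanSpace.inner_single_right] using this
  have := s.R.symm.inner_map_map (ee d) (ee e)
  rw [PiLp.inner_apply] at this
  simp only [h]
  simpa [ee, EuclideanSpace.inner_single_left, Pi.single_apply, eq_comm] using this

theorem r_le (s : Sim) (a b : Fin 3) : |s.r a b| ≤ 1 := by
  have := PiLp.norm_apply_le (s.R (ee a)) b
  simpa [r, ee] using this

theorem symm_apply (s : Sim) (v : E) (a : Fin 3) : s.R.symm v a = ∑ b, s.r a b * v b := by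
  have := s.R.inner_map_map (ee a) (s.R.symm v)
  rw [LinearIsometryEquiv.apply_symm_apply, PiLp.inner_apply] at this
  simpa [r, ee, EuclideanSpace.inner_single_left, mul_comm] using this.symm

end Sim

/-- `G` is the pull-back of `F` under `s` -/
structure Pull (s : Sim) (F G : Mv) : Prop where
  ok : s.Ok
  mem : ∀ p, p ∈ G.M ↔ p ∈ s.U ∧ s.map p ∈ F.M
  n_eq : ∀ p ∈ G.M, G.n p = s.R.symm (F.n (s.map p))
  V_eq : ∀ p ∈ G.M, G.V p = (deriv s.θ p.2 * F.V (s.map p)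
    - deriv s.c p.2 * ⟪F.n (s.map p), s.R p.1⟫_ℝ) / s.c p.2

namespace Pull

variable {s : Sim} (h : Pull s F G)
include h

theorem U (hp : p ∈ G.M) : p ∈ s.U := ((h.mem p).1 hp).1

theorem M (hp : p ∈ G.M) : s.map p ∈ F.M := ((h.mem p).1 hp).2

theorem pos (hp : p ∈ G.M) : 0 < s.c p.2 := h.ok.pos p (h.U hp)

theorem loc {W : Set ST} {φ : ST → ℝ} (hl : F.Loc W φ) :
    G.Loc (s.U ∩ s.map ⁻¹' W) (φ ∘ s.map) := by
  have hc : ∀ q ∈ s.U ∩ s.map ⁻¹' W, ContDiffAt ℝ ∞ (φ ∘ s.map) q := fun q hq =>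
    (loc_at hl hq.2).comp q (h.ok.at hq.1)
  have hd : ∀ q ∈ s.U ∩ s.map ⁻¹' W, ∀ w, fderiv ℝ (φ ∘ s.map) q w
      = fderiv ℝ φ (s.map q) (fderiv ℝ s.map q w) := fun q hq w => by
    rw [fderiv_comp q (loc_diff hl hq.2) ((h.ok.at hq.1).differentiableAt (by simp))]; rfl
  have hg : ∀ q ∈ s.U ∩ s.map ⁻¹' W, gradX (φ ∘ s.map) q.1 q.2
      = s.c q.2 • s.R.symm (gradX φ (s.map q).1 (s.map q).2) := fun q hq => by
    apply ext_inner_right ℝ
    intro v
    rw [← fd_sp ((hc q hq).differentiableAt (by simp)), hd q hq, h.ok.fd hq.1,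
      fd_st (loc_diff hl hq.2), inner_smul_left, ← s.R.inner_map_map (s.R.symm _)]
    simp [inner_smul_right]
  have hn : ∀ q ∈ s.U ∩ s.map ⁻¹' W, ‖gradX (φ ∘ s.map) q.1 q.2‖
      = s.c q.2 * ‖gradX φ (s.map q).1 (s.map q).2‖ := fun q hq => by
    rw [hg q hq, norm_smul, LinearIsometryEquiv.norm_map, Real.norm_of_nonneg (h.ok.pos q hq.1).le]
  refine ⟨ContinuousOn.isOpen_inter_preimage
    (fun q hq => (h.ok.at hq).continuousAt.continuousWithinAt) h.ok.isOpen hl.isOpen,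
    fun q hq => (hc q hq).contDiffWithinAt, fun q hq => ?_, fun q hq => ?_, fun q hq hM => ?_,
    fun q hq hM => ?_⟩
  · rw [← norm_ne_zero_iff, hn q hq]
    exact mul_ne_zero (h.ok.pos q hq.1).ne' (norm_ne_zero_iff.2 (hl.ne _ hq.2))
  · rw [h.mem, hl.mem _ hq.2]; simp [hq.1]
  · rw [hn q hq, hg q hq, h.n_eq q hM, hl.n_eq _ hq.2 (h.M hM), map_smul, smul_smul]
    congr 1
    have := (h.ok.pos q hq.1).ne'
    field_simp
  · rw [hn q hq, h.V_eq q hM, hl.n_eq _ hq.2 (h.M hM), hl.V_eq _ hq.2 (h.M hM),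
      ← fd_tm ((hc q hq).differentiableAt (by simp)), hd q hq, h.ok.fd hq.1,
      fd_st (loc_diff hl hq.2), inner_smul_left]
    have := (h.ok.pos q hq.1).ne'
    have := norm_ne_zero_iff.2 (hl.ne _ hq.2)
    simp only [map_zero, smul_zero, zero_add, one_mul, inner_smul_right, conj_trivial]
    field_simp
    ring

theorem reg (hF : F.Reg) : G.Reg := fun p hp => by
  obtain ⟨W, φ, hW, hl⟩ := hF _ (h.M hp)
  exact ⟨_, _, (⟨h.U hp, hW⟩ : p ∈ s.U ∩ s.map ⁻¹' W), h.loc hl⟩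

theorem sm {Y : Type} [NormedAddCommGroup Y] [NormedSpace ℝ Y] {f : ST → Y} (hf : F.Sm f) :
    G.Sm (f ∘ s.map) :=
  ContDiffOn.comp hf (fun _ hq => (h.ok.at (h.U hq)).contDiffWithinAt) fun _ hq => h.M hq

theorem td {Y : Type} [NormedAddCommGroup Y] [NormedSpace ℝ Y] {f : ST → Y} (hf : F.Sm f)
    (hp : p ∈ G.M) {w : ST} (hw : w ∈ tangentConeAt ℝ G.M p) :
    G.td (f ∘ s.map) p w = F.td f (s.map p) (fderiv ℝ s.map p w) :=
  td_eq ((sm_has hf (h.M hp)).comp p ((h.ok.at (h.U hp)).differentiableAt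
    (by simp)).hasFDerivAt.hasFDerivWithinAt fun _ hq => h.M hq) hw

theorem PL (hp : p ∈ G.M) (v : E) : s.R (G.PL p v) = F.PL (s.map p) (s.R v) := by
  rw [Mv.PL, Mv.PL, h.n_eq p hp, map_sub, map_smul, ← s.R.inner_map_map]
  simp

theorem D (hF : F.Reg) (hf : F.Sm f) (hp : p ∈ G.M) (a : Fin 3) :
    G.D a (f ∘ s.map) p = s.c p.2 * ∑ b, s.r a b * F.D b f (s.map p) := by
  have e : fderiv ℝ s.map p (G.PL p (ee a), 0)
      = s.c p.2 • ((F.PL (s.map p) (s.R (ee a)), 0) : ST) := by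
    rw [h.ok.fd (h.U hp), h.PL hp]; simp
  rw [D_def, h.td hf hp (PL_mem (h.reg hF) hp _), e, map_smul, td_PL]
  rfl

theorem Dt (hF : F.Reg) (hf : F.Sm f) (hp : p ∈ G.M) :
    G.Dt (f ∘ s.map) p = deriv s.θ p.2 * F.Dt f (s.map p)
      + deriv s.c p.2 * ∑ b, s.R p.1 b * F.D b f (s.map p) := by
  have e : fderiv ℝ s.map p (G.V p • G.n p, 1)
      = deriv s.θ p.2 • ((F.V (s.map p) • F.n (s.map p), 1) : ST)
        + deriv s.c p.2 • ((F.PL (s.map p) (s.R p.1), 0) : ST) := by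
    rw [h.ok.fd (h.U hp), h.n_eq p hp, h.V_eq p hp]
    have := (h.pos hp).ne'
    refine Prod.ext ?_ (by simp)
    simp only [map_smul, LinearIsometryEquiv.apply_symm_apply, smul_smul, Mv.PL, Prod.fst_add,
      Prod.smul_fst, smul_sub, one_mul, mul_div_cancel₀ _ this, sub_smul]
    abel
  rw [Mv.Dt, h.td hf hp (vel_mem (h.reg hF) hp), e, map_add, map_smul, map_smul, td_PL]
  rfl

theorem nu (hp : p ∈ G.M) (a : Fin 3) : G.nu a p = ∑ b, s.r a b * F.nu b (s.map p) := by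
  rw [Mv.nu, h.n_eq p hp, s.symm_apply]; rfl

end Pull

/-- rotated iterated derivative -/
def Sim.T (s : Sim) (F : Mv) (l : List (Fin 3)) (f : ST → ℝ) : ST → ℝ :=
  l.foldr (fun a g q => ∑ b, s.r a b * F.D b g q) f

theorem Sim.sm_T (s : Sim) (hF : F.Reg) (hf : F.Sm f) (l : List (Fin 3)) : F.Sm (s.T F l f) := by
  induction l with
  | nil => exact hf
  | cons a l ih => exact sm_lin Finset.univ (s.r a) fun b _ => sm_D hF ih b

theorem Sim.T_le (s : Sim) (hF : F.Reg) (hf : F.Sm f) (hp : p ∈ F.M) {C : ℝ} (l : List (Fin 3)) :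
    ∀ l' : List (Fin 3), F.JetLe f (l'.length + l.length) C p →
      |F.DL l' (s.T F l f) p| ≤ 3 ^ l.length * C := by
  induction l with
  | nil => exact fun l' h => by simpa [Sim.T] using h l' rfl
  | cons a l ih =>
    intro l' h
    have e : F.DL l' (s.T F (a :: l) f) p = ∑ b, s.r a b * F.DL (l' ++ [b]) (s.T F l f) p := by
      simp only [Mv.DL, List.foldr_append]
      exact DL_lin hF Finset.univ (s.r a) (fun b _ => sm_D hF (s.sm_T hF hf l) b) l' p hp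
    rw [e]
    refine (Finset.abs_sum_le_sum_abs _ _).trans ?_
    have : ∀ b, |s.r a b * F.DL (l' ++ [b]) (s.T F l f) p| ≤ 3 ^ l.length * C := fun b => by
      rw [abs_mul]
      have := ih (l' ++ [b]) (by simpa [add_assoc, add_comm 1] using h)
      exact (mul_le_of_le_one_left (abs_nonneg _) (s.r_le a b)).trans this
    refine (Finset.sum_le_sum fun b _ => this b).trans (le_of_eq ?_)
    simp [pow_succ]; ring

namespace Pull

variable {s : Sim} (h : Pull s F G) (hF : F.Reg)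
include h hF

theorem DL (hf : F.Sm f) (l : List (Fin 3)) :
    ∀ p ∈ G.M, G.DL l (f ∘ s.map) p = s.c p.2 ^ l.length * s.T F l f (s.map p) := by
  induction l with
  | nil => exact fun p _ => by simp [Mv.DL, Sim.T]
  | cons a l ih =>
    intro p hp
    refine (D_congr hp (ev_of_on ih) a).trans ?_
    have := D_tmul (h.reg hF) hp (k := fun t => s.c t ^ l.length)
      (((h.ok.smc p (h.U hp)).differentiableAt (by simp)).pow _) (h.sm (s.sm_T hF hf l)) a
    refine this.trans ?_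
    rw [h.D hF (s.sm_T hF hf l) hp, List.length_cons, pow_succ, mul_assoc]
    rfl

theorem jetLe (hf : F.Sm f) (hp : p ∈ G.M) {k : ℕ} {C : ℝ} (hj : F.JetLe f k C (s.map p)) :
    G.JetLe (f ∘ s.map) k ((3 * s.c p.2) ^ k * C) p := by
  rintro l rfl
  rw [h.DL hF hf l p hp, abs_mul, abs_of_pos (pow_pos (h.pos hp) _), mul_pow, mul_comm (3 ^ _),
    mul_assoc]
  exact mul_le_mul_of_nonneg_left (s.T_le hF hf (h.M hp) l [] (by simpa using hj))
    (pow_pos (h.pos hp) _).le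

theorem nJet (hp : p ∈ G.M) {k : ℕ} {C : ℝ} (hj : F.NJet k C (s.map p)) :
    G.NJet k (3 * ((3 * s.c p.2) ^ k * C)) p := by
  intro a l hl
  rw [(DL_congr (fun q hq => h.nu hq a) l p hp).trans (DL_lin (h.reg hF) Finset.univ (s.r a)
    (f := fun b => F.nu b ∘ s.map) (fun b _ => h.sm (sm_nu hF b)) l p hp)]
  refine (Finset.abs_sum_le_sum_abs _ _).trans ?_
  have : ∀ b, |s.r a b * G.DL l (F.nu b ∘ s.map) p| ≤ (3 * s.c p.2) ^ k * C := fun b => by
    rw [abs_mul]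
    exact (mul_le_of_le_one_left (abs_nonneg _) (s.r_le a b)).trans
      (h.jetLe hF (sm_nu hF b) hp (hj b) l hl)
  refine (Finset.sum_le_sum fun b _ => this b).trans (le_of_eq ?_)
  simp

theorem A (hp : p ∈ G.M) (a b : Fin 3) :
    G.A a b p = s.c p.2 * ∑ e, ∑ d, s.r a e * s.r b d * F.A e d (s.map p) := by
  rw [Mv.A, (D_congr hp (ev_of_on fun q hq => h.nu hq b) a).trans (D_lin (h.reg hF) hp Finset.univ
    (s.r b) (f := fun b => F.nu b ∘ s.map) (fun b _ => h.sm (sm_nu hF b)) a)]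
  simp only [h.D hF (sm_nu hF _) hp, Mv.A, Fin.sum_univ_three]
  ring

omit h hF in
theorem r_eqs (s : Sim) : (∑ a, s.r a 0 * s.r a 0 = 1 ∧ ∑ a, s.r a 1 * s.r a 1 = 1 ∧
    ∑ a, s.r a 2 * s.r a 2 = 1) ∧ ∑ a, s.r a 0 * s.r a 1 = 0 ∧ ∑ a, s.r a 0 * s.r a 2 = 0 ∧
    ∑ a, s.r a 1 * s.r a 2 = 0 := by
  simp [s.r_r]

omit h hF in
theorem tr_r (s : Sim) (X : Fin 3 → Fin 3 → ℝ) :
    ∑ a, ∑ e, ∑ d, s.r a e * s.r a d * X e d = ∑ e, X e e := by
  rw [Finset.sum_comm]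
  refine Finset.sum_congr rfl fun e _ => ?_
  rw [Finset.sum_comm]
  simp [← Finset.sum_mul, s.r_r]

theorem H (hp : p ∈ G.M) : G.H p = s.c p.2 * F.H (s.map p) := by
  simp only [Mv.H, Finset.sum_apply, h.A hF hp, ← Finset.mul_sum, tr_r]

omit h hF in
theorem dot_r (s : Sim) (X Y : Fin 3 → ℝ) :
    ∑ a, (∑ e, s.r a e * X e) * (∑ e, s.r a e * Y e) = ∑ e, X e * Y e := by
  rw [← tr_r s fun e d => X e * Y d]
  refine Finset.sum_congr rfl fun a _ => ?_
  rw [Finset.sum_mul_sum]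
  exact Finset.sum_congr rfl fun e _ => Finset.sum_congr rfl fun d _ => by ring

theorem A2 (hp : p ∈ G.M) : G.A2 p = s.c p.2 ^ 2 * F.A2 (s.map p) := by
  have e : ∀ a b, G.A a b p = s.c p.2 * ∑ e, s.r a e * ∑ d, s.r b d * F.A e d (s.map p) :=
    fun a b => by simp only [h.A hF hp, Finset.mul_sum, mul_assoc]
  simp only [Mv.A2, Finset.sum_apply, Pi.mul_apply, e]
  rw [Finset.sum_comm]
  simp only [mul_mul_mul_comm (s.c p.2), ← Finset.mul_sum, dot_r]
  rw [Finset.sum_comm]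
  simp only [dot_r, sq]

theorem K (hp : p ∈ G.M) : G.K p = s.c p.2 ^ 2 * F.K (s.map p) := by
  rw [Mv.K, Mv.K, h.H hF hp, h.A2 hF hp]; ring

theorem gam (hf : F.Sm f) (hg : F.Sm g) (hp : p ∈ G.M) :
    G.gam (f ∘ s.map) (g ∘ s.map) p = s.c p.2 ^ 2 * F.gam f g (s.map p) := by
  simp only [N222.Pre.gam, Finset.sum_apply, Pi.mul_apply, h.D hF hf hp, h.D hF hg hp,
    mul_mul_mul_comm (s.c p.2), ← Finset.mul_sum, dot_r, sq]

theorem lap (hf : F.Sm f) (hp : p ∈ G.M) :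
    G.lap (f ∘ s.map) p = s.c p.2 ^ 2 * F.lap f (s.map p) := by
  have e : ∀ a, G.D a (G.D a (f ∘ s.map)) p = s.c p.2 ^ 2 *
      ∑ e, ∑ d, s.r a e * s.r a d * F.D e (F.D d f) (s.map p) := fun a => by
    refine (h.DL hF hf [a, a] p hp).trans ?_
    simp only [Sim.T, List.foldr, D_lin hF (h.M hp) _ _ fun b _ => sm_D hF hf b, Finset.mul_sum,
      mul_assoc, List.length_cons, List.length_nil]
  simp only [N222.Pre.lap, Finset.sum_apply, e, ← Finset.mul_sum, tr_r]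

omit hF in
theorem xn (hp : p ∈ G.M) (y : E) :
    s.c p.2 * G.xn y p = F.xn (s.x0 + s.c p.2 • s.R y) (s.map p) := by
  rw [Mv.xn, Mv.xn, h.n_eq p hp, ← s.R.inner_map_map, ← real_inner_smul_left]
  simp [Sim.map, smul_sub]

end Pull

end Crest.Agent.N250.Tr

end
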