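import Crest.Agent.N250.Tr.Pull

/-!
# Row 250, transformations (helper52): measures, reach, properness, convergence under pull-back
-/

set_option autoImplicit false
open MeasureTheory Set Filter Topology
open scoped ContDiff InnerProductSpace Pointwise
open Crest.GeometryTopology.MCF

noncomputable section

namespace Crest.Agent.N250.Tr

variable {F G : Mv} {p : ST} {f g : ST → ℝ} {t : ℝ}

theorem meas_M (hF : F.Reg) : MeasurableSet F.M := by
  choose! W φ hW hl using hF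
  have hO : IsOpen (⋃ p ∈ F.M, W p) := isOpen_biUnion fun p hp => (hl p hp).isOpen
  have e : F.M = (⋃ p ∈ F.M, W p) ∩ closure F.M := by
    refine Subset.antisymm (fun p hp => ⟨mem_biUnion hp (hW p hp), subset_closure hp⟩) ?_
    rintro q ⟨hq, hc⟩
    obtain ⟨p, hp, hq⟩ := mem_iUnion₂.1 hq
    have h1 : q ∈ closure (W p ∩ F.M) := (hl p hp).isOpen.inter_closure ⟨hq, hc⟩
    have h2 := (loc_at (hl p hp) hq).continuousAt.continuousWithinAt.mem_closure h1
      (t := {0}) fun y hy => ((hl p hp).mem y hy.1).1 hy.2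
    exact ((hl p hp).mem q hq).2 (by simpa using h2)
  rw [e]
  exact hO.measurableSet.inter isClosed_closure.measurableSet

theorem meas_sl (hF : F.Reg) (t : ℝ) : MeasurableSet (F.sl t) :=
  (meas_M hF).preimage (f := fun x : E => (x, t)) (by fun_prop)

theorem ae_sl (hF : F.Reg) (t : ℝ) : ∀ᵐ x ∂F.mu t, (x, t) ∈ F.M := ae_restrict_mem (meas_sl hF t)

namespace Sim

variable (s : Sim)

/-- the space part of `map` at time `t` -/
def aff (t : ℝ) (x : E) : E := s.x0 + s.c t • s.R x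

theorem map_eq (x : E) (t : ℝ) : s.map (x, t) = (s.aff t x, s.θ t) := rfl

variable {s}

theorem dist_aff (hc : 0 < s.c t) (x y : E) : dist (s.aff t x) (s.aff t y) = s.c t * dist x y := by
  simp [aff, dist_smul₀, abs_of_pos hc]

/-- `aff` as a measurable equivalence -/
def affE (hc : 0 < s.c t) : E ≃ₜ E :=
  s.R.toHomeomorph.trans ((Homeomorph.smulOfNeZero (s.c t) hc.ne').trans (Homeomorph.addLeft s.x0))

theorem affE_apply (hc : 0 < s.c t) (x : E) : affE hc x = s.aff t x := rfl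

theorem aff_surj (hc : 0 < s.c t) : Function.Surjective (s.aff t) := (affE hc).surjective

theorem aff_emb (hc : 0 < s.c t) : MeasurableEmbedding (s.aff t) :=
  (affE hc).toMeasurableEquiv.measurableEmbedding

theorem aff_ball (hc : 0 < s.c t) (y : E) (r : ℝ) :
    s.aff t ⁻¹' Metric.ball (s.aff t y) (s.c t * r) = Metric.ball y r := by
  ext x; simp [dist_aff hc, hc]

theorem muHE_aff (hc : 0 < s.c t) (B : Set E) :
    (μHE[2] : Measure E) (s.aff t ⁻¹' B) = ENNReal.ofReal (s.c t ^ 2)⁻¹ * μHE[2] B := by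
  have e : s.aff t ⁻¹' B = s.R ⁻¹' ((s.c t)⁻¹ • ((fun x => s.x0 + x) ⁻¹' B)) := by
    ext x
    simp [aff, mem_inv_smul_set_iff₀ hc.ne']
  rw [e, s.R.isometry.euclideanHausdorffMeasure_preimage, s.R.surjective.range_eq, inter_univ,
    Measure.euclideanHausdorffMeasure_smul₀ 2 (inv_ne_zero hc.ne'), measure_preimage_add,
    ENNReal.smul_def, smul_eq_mul]
  congr 1
  rw [← ENNReal.ofReal_coe_nnreal]
  simp

theorem gau_aff (hc : 0 < s.c t) (y : E) (σ : ℝ) (x : E) :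
    gau y σ x = s.c t ^ 2 * gau (s.aff t y) (s.c t ^ 2 * σ) (s.aff t x) := by
  have := hc.ne'
  rw [gau, gau, ← dist_eq_norm, ← dist_eq_norm, dist_aff hc]
  rcases eq_or_ne σ 0 with rfl | h
  · simp
  rw [show -(s.c t * dist x y) ^ 2 / (4 * (s.c t ^ 2 * σ)) = -dist x y ^ 2 / (4 * σ) by field_simp]
  field_simp

/-- the whole slice `t` lies in `U` -/
def Full (s : Sim) (t : ℝ) : Prop := ∀ x, (x, t) ∈ s.U

theorem Ok.cpos (h : s.Ok) (ht : s.Full t) : 0 < s.c t := h.pos (0, t) (ht 0)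

end Sim

namespace Pull

variable {s : Sim} (h : Pull s F G)
include h

theorem sl (ht : s.Full t) : G.sl t = s.aff t ⁻¹' F.sl (s.θ t) := by
  ext x; simp [Mv.sl, h.mem, ht x, Sim.map_eq]

theorem sl_empty (ht : ∀ x, (x, t) ∉ s.U) : G.sl t = ∅ := by
  ext x; simp [Mv.sl, h.mem, ht x]

theorem mu_empty (ht : ∀ x, (x, t) ∉ s.U) : G.mu t = 0 := by simp [Mv.mu, h.sl_empty ht]

theorem mu_map (ht : s.Full t) :
    (G.mu t).map (s.aff t) = ENNReal.ofReal (s.c t ^ 2)⁻¹ • F.mu (s.θ t) := by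
  have hc := h.ok.cpos ht
  rw [Mv.mu, Mv.mu, h.sl ht, ← (Sim.aff_emb hc).restrict_map, ← Measure.restrict_smul]
  congr 1
  ext B -
  rw [(Sim.aff_emb hc).map_apply, Sim.muHE_aff hc]; rfl

theorem mu_pre (ht : s.Full t) (B : Set E) :
    G.mu t (s.aff t ⁻¹' B) = ENNReal.ofReal (s.c t ^ 2)⁻¹ * F.mu (s.θ t) B := by
  rw [← (Sim.aff_emb (h.ok.cpos ht)).map_apply, h.mu_map ht]; rfl

theorem lint (ht : s.Full t) (B : Set E) (u : E → ENNReal) :
    ∫⁻ x in s.aff t ⁻¹' B, u (s.aff t x) ∂G.mu t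
      = ENNReal.ofReal (s.c t ^ 2)⁻¹ * ∫⁻ x in B, u x ∂F.mu (s.θ t) := by
  have he := Sim.aff_emb (h.ok.cpos ht)
  rw [← he.lintegral_map, ← he.restrict_map, h.mu_map ht, Measure.restrict_smul,
    lintegral_smul_measure]; rfl

theorem lint' (ht : s.Full t) (u : E → ENNReal) :
    ∫⁻ x, u (s.aff t x) ∂G.mu t = ENNReal.ofReal (s.c t ^ 2)⁻¹ * ∫⁻ x, u x ∂F.mu (s.θ t) := by
  simpa using h.lint ht univ u

theorem int (ht : s.Full t) (u : E → ℝ) :
    ∫ x, u (s.aff t x) ∂G.mu t = (s.c t ^ 2)⁻¹ * ∫ x, u x ∂F.mu (s.θ t) := by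
  rw [← (Sim.aff_emb (h.ok.cpos ht)).integral_map, h.mu_map ht, integral_smul_measure,
    ENNReal.toReal_ofReal (by positivity)]; rfl

theorem integrable (ht : s.Full t) (u : E → ℝ) :
    Integrable (fun x => u (s.aff t x)) (G.mu t) ↔ Integrable u (F.mu (s.θ t)) := by
  have := h.ok.cpos ht
  rw [← integrable_smul_measure (c := ENNReal.ofReal (s.c t ^ 2)⁻¹) (μ := F.mu _)
    (by simpa using by positivity) ENNReal.ofReal_ne_top, ← h.mu_map ht,
    (Sim.aff_emb this).integrable_map_iff]; rfl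

theorem Fs (ht : s.Full t) (y : E) (σ : ℝ) :
    G.Fs t y σ = F.Fs (s.θ t) (s.aff t y) (s.c t ^ 2 * σ) := by
  have hc := h.ok.cpos ht
  simp only [Mv.Fs, Sim.gau_aff hc y σ, integral_const_mul]
  rw [h.int ht]
  field_simp

theorem ar {Λ : ℝ} (hJ : ∀ t, s.Full t ∨ ∀ x, (x, t) ∉ s.U) (hA : F.AR Λ) : G.AR Λ := by
  intro t y r hr
  rcases hJ t with ht | ht
  · have hc := h.ok.cpos ht
    rw [← Sim.aff_ball hc, h.mu_pre ht]
    refine (mul_le_mul_right (hA _ _ _ (mul_pos hc hr)) _).trans (le_of_eq ?_)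
    rw [← ENNReal.ofReal_mul (by positivity)]
    congr 1
    field_simp
  · simp [h.mu_empty ht]

theorem aff_n (hp : p ∈ G.M) (ρ : ℝ) :
    s.aff p.2 (p.1 + ρ • G.n p) = (s.map p).1 + (s.c p.2 * ρ) • F.n (s.map p) := by
  simp [Sim.aff, Sim.map, h.n_eq p hp, smul_smul, add_assoc]

theorem aff_n' (hp : p ∈ G.M) (ρ : ℝ) :
    s.aff p.2 (p.1 - ρ • G.n p) = (s.map p).1 - (s.c p.2 * ρ) • F.n (s.map p) := by
  simpa [sub_eq_add_neg] using h.aff_n hp (-ρ)

theorem reach (hp : p ∈ G.M) {ρ : ℝ} (hr : F.Reach (s.map p) (s.c p.2 * ρ)) : G.Reach p ρ := by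
  intro y hy
  have hc := h.pos hp
  have := hr (s.aff p.2 y) (h.M hy)
  rw [← h.aff_n hp, ← h.aff_n' hp, Sim.dist_aff hc, Sim.dist_aff hc] at this
  exact ⟨le_of_mul_le_mul_left this.1 hc, le_of_mul_le_mul_left this.2 hc⟩

theorem reach_of (hp : p ∈ G.M) (ht : s.Full p.2) {ρ : ℝ} (hr : G.Reach p ρ) :
    F.Reach (s.map p) (s.c p.2 * ρ) := by
  intro y hy
  have hc := h.pos hp
  obtain ⟨x, rfl⟩ := Sim.aff_surj hc y
  have := hr x (by rw [h.sl ht]; exact hy)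
  rw [← h.aff_n hp, ← h.aff_n' hp, Sim.dist_aff hc, Sim.dist_aff hc]
  exact ⟨mul_le_mul_of_nonneg_left this.1 hc.le, mul_le_mul_of_nonneg_left this.2 hc.le⟩

theorem proper {Ω : Set ST} (hP : F.Proper Ω) : G.Proper (s.U ∩ s.map ⁻¹' Ω) := fun p hp hΩ =>
  (h.mem p).2 ⟨hΩ.1, hP _ ((h.ok.at hΩ.1).continuousAt.continuousWithinAt.mem_closure hp
    fun _ hq => h.M hq) hΩ.2⟩

theorem lgb {C : ℝ} (hF : F.Reg) (hJ : ∀ t, s.Full t ∨ ∀ x, (x, t) ∉ s.U) (hL : LGB F C) :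
    LGB G C := by
  intro t y r hr
  rcases hJ t with ht | ht
  · have hc := h.ok.cpos ht
    have e : ∀ (u v : ST → ℝ) (B : Set E), (∀ p ∈ G.M, u p = s.c p.2 ^ 2 * v (s.map p)) →
        ∫⁻ x in s.aff t ⁻¹' B, ENNReal.ofReal (u (x, t)) ∂G.mu t
          = ∫⁻ x in B, ENNReal.ofReal (v (x, s.θ t)) ∂F.mu (s.θ t) := fun u v B huv => by
      rw [lintegral_congr_ae (g := fun x => ENNReal.ofReal (s.c t ^ 2) *
          ENNReal.ofReal (v (s.aff t x, s.θ t))) ?_,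
        lintegral_const_mul' _ _ ENNReal.ofReal_ne_top,
        h.lint ht B fun x => ENNReal.ofReal (v (x, s.θ t)), ← mul_assoc,
        ← ENNReal.ofReal_mul (by positivity), mul_inv_cancel₀ (by positivity)]
      · simp
      filter_upwards [ae_restrict_of_ae (ae_sl (h.reg hF) t)] with x hx
      rw [huv _ hx, ENNReal.ofReal_mul (by positivity)]; rfl
    rw [← Sim.aff_ball hc y r, ← Sim.aff_ball hc y (2 * r), e G.A2 F.A2 _ fun p hp => h.A2 hF hp,
      e (fun p => G.H p ^ 2) (fun p => F.H p ^ 2) _ fun p hp => by rw [h.H hF hp, mul_pow],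
      mul_left_comm]
    exact hL _ _ _ (mul_pos hc hr)
  · simp [h.mu_empty ht]

end Pull

theorem tlu_comp {α : Type} {l : Filter α} {W U : Set ST} {Ψ : ST → ST} {φ : ST → ℝ}
    {φk : α → ST → ℝ} (hW : IsOpen W) (hU : IsOpen U) (hΨ : ContDiffOn ℝ ∞ Ψ U) (hm : MapsTo Ψ U W)
    (hφ : ContDiffOn ℝ ∞ φ W) (hk : ∀ᶠ k in l, ContDiffOn ℝ ∞ (φk k) W)
    (hc : ∀ m : ℕ, TendstoLocallyUniformlyOn (fun k => iteratedFDeriv ℝ m (φk k))
      (iteratedFDeriv ℝ m φ) l W) (m : ℕ) :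
    TendstoLocallyUniformlyOn (fun k => iteratedFDeriv ℝ m (φk k ∘ Ψ))
      (iteratedFDeriv ℝ m (φ ∘ Ψ)) l U := by
  rw [tendstoLocallyUniformlyOn_iff_forall_isCompact hU]
  intro K hKU hK
  have hb : ∀ i : ℕ, ∃ B, ∀ x ∈ K, ‖iteratedFDerivWithin ℝ i Ψ U x‖ ≤ B := fun i =>
    hK.exists_bound_of_continuousOn ((hΨ.continuousOn_iteratedFDerivWithin
      (by exact_mod_cast le_top) hU.uniqueDiffOn).mono hKU)
  choose B hB using hb
  obtain ⟨D, hD1, hD⟩ : ∃ D : ℝ, 1 ≤ D ∧ ∀ i ≤ m, B i ≤ D :=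
    ⟨1 + ∑ i ∈ Finset.range (m + 1), |B i|, le_add_of_nonneg_right (by positivity), fun i hi =>
      (le_abs_self _).trans ((Finset.single_le_sum (f := fun i => |B i|) (fun _ _ => abs_nonneg _)
        (Finset.mem_range.2 (Nat.lt_succ_of_le hi))).trans (by linarith))⟩
  have hK' : IsCompact (Ψ '' K) := hK.image_of_continuousOn (hΨ.continuousOn.mono hKU)
  have hKW : Ψ '' K ⊆ W := by rintro _ ⟨x, hx, rfl⟩; exact hm (hKU hx)
  rw [Metric.tendstoUniformlyOn_iff]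
  intro ε hε
  have hδ : 0 < ε / (2 * (m.factorial * D ^ m)) := by positivity
  have h1 : ∀ᶠ k in l, ∀ i ∈ Finset.range (m + 1), ∀ y ∈ Ψ '' K,
      dist (iteratedFDeriv ℝ i φ y) (iteratedFDeriv ℝ i (φk k) y) < ε / (2 * (m.factorial * D ^ m)) :=
    (eventually_all_finset _).2 fun i _ => Metric.tendstoUniformlyOn_iff.1
      ((tendstoLocallyUniformlyOn_iff_forall_isCompact hW).1 (hc i) _ hKW hK') _ hδ
  filter_upwards [h1, hk] with k h1 hk x hx
  have hxU := hKU hx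
  have sub : ∀ {V : Set ST} {u v : ST → ℝ} (i : ℕ) {y : ST}, IsOpen V → y ∈ V →
      ContDiffOn ℝ ∞ u V → ContDiffOn ℝ ∞ v V →
      dist (iteratedFDeriv ℝ i u y) (iteratedFDeriv ℝ i v y)
        = ‖iteratedFDerivWithin ℝ i (u - v) V y‖ := fun i y hV hy hu hv => by
    rw [iteratedFDerivWithin_of_isOpen i hV hy, dist_eq_norm, iteratedFDeriv_sub_apply
      ((hu.contDiffAt (hV.mem_nhds hy)).of_le (by exact_mod_cast le_top))
      ((hv.contDiffAt (hV.mem_nhds hy)).of_le (by exact_mod_cast le_top))]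
  rw [sub m hU hxU (hφ.comp hΨ hm) (hk.comp hΨ hm)]
  have := norm_iteratedFDerivWithin_comp_le (hφ.sub hk) hΨ (n := m) (by exact_mod_cast le_top)
    hW.uniqueDiffOn hU.uniqueDiffOn hm hxU (C := ε / (2 * (m.factorial * D ^ m))) (D := D)
    (fun i hi => by
      have := h1 i (Finset.mem_range.2 (Nat.lt_succ_of_le hi)) _ (mem_image_of_mem Ψ hx)
      rw [sub i hW (hm hxU) hφ hk] at this
      exact this.le)
    (fun i h1 hi => (hB i x hx).trans ((hD i hi).trans (le_self_pow₀ hD1 (by omega))))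
  refine (le_of_eq_of_le rfl this).trans_lt ?_
  rw [show m.factorial * (ε / (2 * (m.factorial * D ^ m))) * D ^ m = ε / 2 by field_simp]
  linarith

theorem conv_pull {α : Type} {l : Filter α} {s : Sim} {Fk Gk : α → Mv} {Ω : Set ST}
    (h : Pull s F G) (hk : ∀ᶠ k in l, Pull s (Fk k) (Gk k)) (hc : Conv l Fk F Ω) :
    Conv l Gk G (s.U ∩ s.map ⁻¹' Ω) := by
  constructor
  · intro p hp hM
    obtain ⟨V, hV, hd⟩ := hc.away _ hp.2 fun h' => hM ((h.mem p).2 ⟨hp.1, h'⟩)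
    refine ⟨_, (h.ok.at hp.1).continuousAt.preimage_mem_nhds hV, ?_⟩
    filter_upwards [hd, hk] with k h1 h2
    exact disjoint_left.2 fun q a b => disjoint_left.1 h1 a (h2.M b)
  · intro p hp hM
    obtain ⟨W, φ, φk, hW, hl, hlk, ht⟩ := hc.near _ hp.2 (h.M hM)
    refine ⟨_, _, fun k => φk k ∘ s.map, (⟨hp.1, hW⟩ : p ∈ s.U ∩ s.map ⁻¹' W), h.loc hl, ?_,
      tlu_comp hl.isOpen (h.loc hl).isOpen (fun q hq => (h.ok.at hq.1).contDiffWithinAt)
        (fun q hq => hq.2) hl.sm (hlk.mono fun k hk => hk.sm) ht⟩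
    filter_upwards [hlk, hk] with k h1 h2 using h2.loc h1

end Crest.Agent.N250.Tr

end
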