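import Crest.Agent.N250.Tr.Inst

/-!
# Row 250, transformations (helper52): `rot`, `res`, `freeze`, `resc`, `unresc`, `flip`
-/

set_option autoImplicit false
open MeasureTheory Set Filter Topology
open scoped ContDiff InnerProductSpace Pointwise
open Crest.GeometryTopology.MCF

noncomputable section

namespace Crest.Agent.N250.Tr

variable {F G : Mv} {p : ST} {f g : ST → ℝ} {t : ℝ}

theorem mv_ext (h1 : ∀ p, p ∈ F.M ↔ p ∈ G.M) (h2 : ∀ p, F.n p = G.n p) (h3 : ∀ p, F.V p = G.V p) :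
    F = G := by
  cases F; cases G
  simp only [Mv.mk.injEq]
  exact ⟨Set.ext h1, funext h2, funext h3⟩

/-! ### `rot` -/

def rotS (R : E ≃ₗᵢ[ℝ] E) : Sim := ⟨0, R, fun _ => 1, fun t => t, univ⟩

theorem rotS_map (R : E ≃ₗᵢ[ℝ] E) (p : ST) : (rotS R).map p = (R p.1, p.2) := by
  simp [rotS, Sim.map]

theorem rotS_aff (R : E ≃ₗᵢ[ℝ] E) (t : ℝ) (x : E) : (rotS R).aff t x = R x := by
  simp [rotS, Sim.aff]

section rot

variable (R : E ≃ₗᵢ[ℝ] E)

theorem pull_rot (F : Mv) : Pull (rotS R) F (F.rot R) where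
  ok := ⟨isOpen_univ, fun _ _ => one_pos, fun _ _ => contDiffAt_const, fun _ _ => contDiffAt_id⟩
  mem p := by rw [rotS_map]; simp [Mv.rot, rotS]
  n_eq p _ := by rw [rotS_map]; rfl
  V_eq p _ := by rw [rotS_map]; simp [Mv.rot, rotS]

theorem rot_reg (hF : F.Reg) : (F.rot R).Reg := (pull_rot R F).reg hF

theorem rot_mcf (hF : F.IsMCF) : (F.rot R).IsMCF :=
  (pull_rot R F).mcf hF (fun _ _ => by simp [rotS]) fun _ _ => by simp [rotS]

theorem rot_H (hF : F.Reg) (hp : p ∈ (F.rot R).M) : (F.rot R).H p = F.H (R p.1, p.2) := by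
  rw [(pull_rot R F).H hF hp, rotS_map]; simp [rotS]

theorem rot_A2 (hF : F.Reg) (hp : p ∈ (F.rot R).M) : (F.rot R).A2 p = F.A2 (R p.1, p.2) := by
  rw [(pull_rot R F).A2 hF hp, rotS_map]; simp [rotS]

theorem rot_xn (p : ST) (y : E) : (F.rot R).xn y p = F.xn (R y) (R p.1, p.2) := by
  simp only [Mv.xn, Mv.rot]
  rw [← R.inner_map_map]; simp

theorem rot_shr (hF : F.Reg) (hp : p ∈ (F.rot R).M) : (F.rot R).shr p = F.shr (R p.1, p.2) := by
  rw [Mv.shr, Mv.shr, rot_H R hF hp, rot_xn, map_zero]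

theorem rot_rmcf (hF : F.IsRMCF) : (F.rot R).IsRMCF :=
  ⟨rot_reg R hF.1, fun p hp => by rw [rot_shr R hF.1 hp]; exact hF.2 _ hp⟩

theorem rot_static (hF : F.Static) : (F.rot R).Static :=
  ⟨fun x t => hF.mem _ t, fun x t => congrArg R.symm (hF.n_eq _ t), fun _ => hF.V_eq _⟩

theorem rot_isShr (hF : F.IsShr) : (F.rot R).IsShr :=
  ⟨rot_reg R hF.reg, rot_static R hF.st,
    hF.closed.preimage (f := fun p : ST => (R p.1, p.2)) (by fun_prop),
    fun p hp => by rw [rot_shr R hF.reg hp]; exact hF.eq _ hp⟩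

theorem rot_ar {Λ : ℝ} (hF : F.AR Λ) : (F.rot R).AR Λ :=
  (pull_rot R F).ar (fun _ => Or.inl fun _ => trivial) hF

theorem rot_lgb {C : ℝ} (hF : F.Reg) (hL : LGB F C) : LGB (F.rot R) C :=
  (pull_rot R F).lgb hF (fun _ => Or.inl fun _ => trivial) hL

theorem rot_fl {I : Set ℝ} {Λ : ℝ} (hF : Fl F I Λ) : Fl (F.rot R) I Λ := by
  refine ⟨rot_mcf R hF.mcf, fun p hp => hF.time (R p.1, p.2) hp, fun p hp hI => ?_, rot_ar R hF.ar⟩
  exact (pull_rot R F).proper hF.proper p hp ⟨trivial, trivial, hI.2⟩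

theorem rot_Fs (t : ℝ) (y : E) (σ : ℝ) : (F.rot R).Fs t y σ = F.Fs t (R y) σ := by
  rw [(pull_rot R F).Fs fun _ => trivial, rotS_aff]; simp [rotS]

theorem rot_Fg (Y : ST) (r : ℝ) : (F.rot R).Fg Y r = F.Fg (R Y.1, Y.2) r := rot_Fs R _ _ _

theorem rot_reach (hp : p ∈ (F.rot R).M) (ρ : ℝ) :
    (F.rot R).Reach p ρ ↔ F.Reach (R p.1, p.2) ρ := by
  have h1 := (pull_rot R F).reach_of hp (fun _ => trivial) (ρ := ρ)
  have h2 := (pull_rot R F).reach hp (ρ := ρ)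
  rw [rotS_map] at h1 h2
  simpa [rotS] using Iff.intro h1 h2

theorem rot_nJet (hF : F.Reg) (hp : p ∈ (F.rot R).M) {k : ℕ} {C : ℝ}
    (h : F.NJet k C (R p.1, p.2)) : (F.rot R).NJet k (3 ^ (k + 1) * C) p := by
  have := (pull_rot R F).nJet hF hp (by rw [rotS_map]; exact h)
  simpa [rotS, pow_succ', mul_assoc] using this

theorem rot_int (t : ℝ) (u : E → ℝ) : ∫ x, u (R x) ∂(F.rot R).mu t = ∫ x, u x ∂F.mu t := by
  simpa [rotS, Sim.aff] using (pull_rot R F).int (t := t) (fun _ => trivial) u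

theorem rot_conv {α : Type} {l : Filter α} {Fk : α → Mv} {I : Set ℝ}
    (hc : Conv l Fk F (univ ×ˢ I)) : Conv l (fun k => (Fk k).rot R) (F.rot R) (univ ×ˢ I) := by
  have := conv_pull (pull_rot R F) (.of_forall fun k => pull_rot R (Fk k)) hc
  convert this using 1
  ext p; simp [rotS, Sim.map]

theorem rot_cl {I : Set ℝ} {Λ : ℝ} {m : Md} (hF : Cl F I Λ m) : Cl (F.rot R) I Λ m := by
  refine ⟨hF.tm, rot_fl R hF.fl, fun ρ z r hr hI hd x hx hz => ?_⟩
  rw [rot_Fg, rot_Fg] at hd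
  exact (rot_reach R hx _).2 (hF.as ρ (R z) r hr hI hd (R x) hx (by simpa using hz))

theorem rot_unresc (F : Mv) : (F.rot R).unresc = F.unresc.rot R := by
  refine mv_ext (fun p => ?_) (fun p => ?_) fun p => ?_
  · simp [Mv.unresc, Mv.rot, umap]
  · simp [Mv.unresc, Mv.rot, umap]
  · simp only [Mv.unresc, Mv.rot, umap]
    rw [← R.inner_map_map]; simp

theorem rot_sh {Λ : ℝ} {m : Md} (hS : Sh F Λ m) : Sh (F.rot R) Λ m :=
  ⟨rot_isShr R hS.shr, by rw [rot_unresc]; exact rot_cl R hS.cl⟩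

theorem rot_para (F : Mv) (lam : ℝ) : (F.rot R).para 0 lam = (F.para 0 lam).rot R := by
  refine mv_ext (fun p => ?_) (fun p => ?_) fun p => ?_ <;> simp [Mv.para, Mv.rot]

theorem rot_rot (F : Mv) (Q : E ≃ₗᵢ[ℝ] E) : (F.rot R).rot Q = F.rot (Q.trans R) := rfl

theorem rot_symm (F : Mv) : (F.rot R).rot R.symm = F := by
  refine mv_ext (fun p => ?_) (fun p => ?_) fun p => ?_ <;> simp [Mv.rot]

end rot

/-! ### `res` -/

section res

variable {Ω : Set ST} (hΩ : IsOpen Ω)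
include hΩ

theorem res_reg (hF : F.Reg) : (F.res Ω).Reg := fun p hp => by
  obtain ⟨W, φ, hW, h⟩ := hF p hp.1
  exact ⟨W ∩ Ω, φ, ⟨hW, hp.2⟩, h.isOpen.inter hΩ, h.sm.mono inter_subset_left,
    fun q hq => h.ne q hq.1, fun q hq => by simp [Mv.res, hq.2, h.mem q hq.1],
    fun q hq hM => h.n_eq q hq.1 hM.1, fun q hq hM => h.V_eq q hq.1 hM.1⟩

theorem res_td {Y : Type} [NormedAddCommGroup Y] [NormedSpace ℝ Y] (f : ST → Y) (hp : p ∈ Ω) :
    (F.res Ω).td f p = F.td f p := fderivWithin_inter (hΩ.mem_nhds hp)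

theorem res_D (f : ST → ℝ) (hp : p ∈ Ω) (a : Fin 3) : (F.res Ω).D a f p = F.D a f p := by
  rw [D_def, D_def, res_td hΩ f hp]; rfl

theorem res_Dt (f : ST → ℝ) (hp : p ∈ Ω) : (F.res Ω).Dt f p = F.Dt f p := by
  rw [Mv.Dt, Mv.Dt, res_td hΩ f hp]; rfl

theorem res_DL (f : ST → ℝ) (l : List (Fin 3)) :
    ∀ p ∈ F.M ∩ Ω, (F.res Ω).DL l f p = F.DL l f p := by
  induction l with
  | nil => exact fun _ _ => rfl
  | cons a l ih =>
    exact fun p hp => (D_congr (F := F.res Ω) hp (ev_of_on ih) a).trans (res_D hΩ _ hp.2 a)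

theorem res_A (hp : p ∈ Ω) (a b : Fin 3) : (F.res Ω).A a b p = F.A a b p := res_D hΩ _ hp a

theorem res_H (hp : p ∈ Ω) : (F.res Ω).H p = F.H p := by
  simp only [Mv.H, Finset.sum_apply, res_A hΩ hp]

theorem res_A2 (hp : p ∈ Ω) : (F.res Ω).A2 p = F.A2 p := by
  simp only [Mv.A2, Finset.sum_apply, Pi.mul_apply, res_A hΩ hp]

theorem res_lap (f : ST → ℝ) (hp : p ∈ F.M ∩ Ω) : (F.res Ω).lap f p = F.lap f p := by
  simp only [N222.Pre.lap, Finset.sum_apply]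
  exact Finset.sum_congr rfl fun a _ => res_DL hΩ f [a, a] p hp

theorem res_mcf (hF : F.IsMCF) : (F.res Ω).IsMCF :=
  ⟨res_reg hΩ hF.1, fun p hp => by rw [res_H hΩ hp.2]; exact hF.2 p hp.1⟩

theorem res_nJet (hp : p ∈ F.M ∩ Ω) {k : ℕ} {C : ℝ} : (F.res Ω).NJet k C p ↔ F.NJet k C p :=
  forall_congr' fun a => forall_congr' fun l => forall_congr' fun _ => by
    rw [show (F.res Ω).nu a = F.nu a from rfl, res_DL hΩ _ l p hp]

theorem res_mu (t : ℝ) : (F.res Ω).mu t = (F.mu t).restrict {x | (x, t) ∈ Ω} := by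
  have hm : MeasurableSet {x : E | (x, t) ∈ Ω} :=
    (hΩ.preimage (f := fun x : E => (x, t)) (by fun_prop)).measurableSet
  rw [Mv.mu, Mv.mu, Measure.restrict_restrict hm, inter_comm]
  rfl

end res

/-! ### `freeze` -/

def frzS (t : ℝ) : Sim := ⟨0, LinearIsometryEquiv.refl ℝ E, fun _ => 1, fun _ => t, univ⟩

theorem frzS_map (t : ℝ) (p : ST) : (frzS t).map p = (p.1, t) := by simp [frzS, Sim.map]

theorem pull_freeze (t : ℝ) (F : Mv) : Pull (frzS t) F (F.freeze t) where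
  ok := ⟨isOpen_univ, fun _ _ => one_pos, fun _ _ => contDiffAt_const, fun _ _ => contDiffAt_const⟩
  mem p := by rw [frzS_map]; simp [Mv.freeze, frzS]
  n_eq p _ := by rw [frzS_map]; rfl
  V_eq p _ := by simp [Mv.freeze, frzS]

theorem frz_reg (hF : F.Reg) (t : ℝ) : (F.freeze t).Reg := (pull_freeze t F).reg hF

theorem frz_static (F : Mv) (t : ℝ) : (F.freeze t).Static :=
  ⟨fun _ _ => Iff.rfl, fun _ _ => rfl, fun _ => rfl⟩

theorem frz_mu (F : Mv) (t s : ℝ) : (F.freeze t).mu s = F.mu t := rfl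

theorem frz_sm (hf : F.Sm f) (t : ℝ) : (F.freeze t).Sm fun q => f (q.1, t) := by
  have := (pull_freeze t F).sm hf
  rwa [show f ∘ (frzS t).map = fun q => f (q.1, t) from funext fun q => by simp [frzS_map]] at this

theorem frz_DL (hF : F.Reg) (hf : F.Sm f) (hp : (p.1, t) ∈ F.M) (l : List (Fin 3)) :
    (F.freeze t).DL l (fun q => f (q.1, t)) p = F.DL l f (p.1, t) := by
  have := (pull_freeze t F).DL0 hF rfl hf hp l
  rw [show f ∘ (frzS t).map = fun q => f (q.1, t) from funext fun q => by simp [frzS_map],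
    frzS_map] at this
  simpa [frzS] using this

theorem frz_A (hF : F.Reg) (hp : (p.1, t) ∈ F.M) (a b : Fin 3) :
    (F.freeze t).A a b p = F.A a b (p.1, t) := frz_DL hF (sm_nu hF b) hp [a]

theorem frz_H (hF : F.Reg) (hp : (p.1, t) ∈ F.M) : (F.freeze t).H p = F.H (p.1, t) := by
  simp only [Mv.H, Finset.sum_apply, frz_A hF hp]

theorem frz_A2 (hF : F.Reg) (hp : (p.1, t) ∈ F.M) : (F.freeze t).A2 p = F.A2 (p.1, t) := by
  simp only [Mv.A2, Finset.sum_apply, Pi.mul_apply, frz_A hF hp]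

theorem frz_shr (hF : F.Reg) (hp : (p.1, t) ∈ F.M) : (F.freeze t).shr p = F.shr (p.1, t) := by
  rw [Mv.shr, frz_H hF hp]; rfl

theorem frz_lap (hF : F.Reg) (hf : F.Sm f) (hp : (p.1, t) ∈ F.M) :
    (F.freeze t).lap (fun q => f (q.1, t)) p = F.lap f (p.1, t) := by
  simp only [N222.Pre.lap, Finset.sum_apply]
  exact Finset.sum_congr rfl fun a _ => frz_DL hF hf hp [a, a]

theorem frz_nJet (hF : F.Reg) (hp : (p.1, t) ∈ F.M) {k : ℕ} {C : ℝ} :
    (F.freeze t).NJet k C p ↔ F.NJet k C (p.1, t) :=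
  forall_congr' fun a => forall_congr' fun l => forall_congr' fun _ => by
    rw [← frz_DL hF (sm_nu hF a) hp l]; rfl

theorem frz_reach (F : Mv) (t : ℝ) (p : ST) (ρ : ℝ) :
    (F.freeze t).Reach p ρ ↔ F.Reach (p.1, t) ρ := Iff.rfl

theorem frz_ar {Λ : ℝ} (hF : F.AR Λ) (t : ℝ) : (F.freeze t).AR Λ := fun _ => hF t

theorem frz_closed {I : Set ℝ} (hF : F.Proper (univ ×ˢ I)) (ht : t ∈ I) :
    IsClosed (F.freeze t).M :=
  isClosed_of_closure_subset fun p hp => (pull_freeze t F).proper hF p hp ⟨trivial, trivial, ht⟩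

/-! ### `resc` -/

def rescS (X : ST) : Sim := ⟨X.1, LinearIsometryEquiv.refl ℝ E, fun τ => Real.exp (-τ / 2),
  fun τ => X.2 - Real.exp (-τ), univ⟩

theorem rescS_map (X : ST) : (rescS X).map = rmap X := rfl

theorem exp_half_sq (τ : ℝ) : Real.exp (-τ / 2) ^ 2 = Real.exp (-τ) := by
  rw [← Real.exp_nat_mul]; congr 1; push_cast; ring

theorem pull_resc (X : ST) (F : Mv) : Pull (rescS X) F (F.resc X) where
  ok := ⟨isOpen_univ, fun _ _ => Real.exp_pos _, fun _ _ => by simp only [rescS]; fun_prop,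
    fun _ _ => by simp only [rescS]; fun_prop⟩
  mem p := by simp [Mv.resc, rescS_map, show (rescS X).U = univ from rfl]
  n_eq _ _ := rfl
  V_eq p _ := by
    have h1 : deriv (rescS X).θ p.2 = Real.exp (-p.2 / 2) ^ 2 := by
      rw [exp_half_sq]
      exact (((hasDerivAt_neg p.2).exp.const_sub X.2).deriv).trans (by simp)
    have h2 : deriv (rescS X).c p.2 = Real.exp (-p.2 / 2) * (-1 / 2) :=
      ((hasDerivAt_neg p.2).div_const 2).exp.deriv
    rw [h1, h2, rescS_map]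
    have := (Real.exp_pos (-p.2 / 2)).ne'
    simp only [Mv.resc, rescS, LinearIsometryEquiv.coe_refl, id, real_inner_comm p.1]
    field_simp
    ring

section resc

variable (X : ST)

theorem resc_reg (hF : F.Reg) : (F.resc X).Reg := (pull_resc X F).reg hF

theorem resc_H (hF : F.Reg) (hp : p ∈ (F.resc X).M) :
    (F.resc X).H p = Real.exp (-p.2 / 2) * F.H (rmap X p) := (pull_resc X F).H hF hp

theorem resc_A2 (hF : F.Reg) (hp : p ∈ (F.resc X).M) :
    (F.resc X).A2 p = Real.exp (-p.2) * F.A2 (rmap X p) := by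
  rw [← exp_half_sq]; exact (pull_resc X F).A2 hF hp

theorem resc_shr (hF : F.Reg) (hp : p ∈ (F.resc X).M) :
    (F.resc X).shr p = Real.exp (-p.2 / 2) * F.dev X (rmap X p) := by
  have := (Real.exp_pos (-p.2 / 2)).ne'
  rw [Mv.shr, Mv.dev, resc_H X hF hp]
  simp only [Mv.xn, Mv.resc, rmap, add_sub_cancel_left, sub_sub_cancel, sub_zero,
    real_inner_smul_left, ← exp_half_sq]
  field_simp

theorem resc_rmcf (hF : F.IsMCF) : (F.resc X).IsRMCF := by
  refine ⟨resc_reg X hF.1, fun p hp => ?_⟩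
  rw [Mv.shr, resc_H X hF.1 hp]
  simp only [Mv.resc, Mv.xn, hF.2 _ hp, sub_zero]
  ring

theorem resc_ar {Λ : ℝ} (hF : F.AR Λ) : (F.resc X).AR Λ :=
  (pull_resc X F).ar (fun _ => Or.inl fun _ => trivial) hF

theorem resc_Fs (τ : ℝ) (y : E) (σ : ℝ) : (F.resc X).Fs τ y σ =
    F.Fs (X.2 - Real.exp (-τ)) (X.1 + Real.exp (-τ / 2) • y) (Real.exp (-τ) * σ) := by
  rw [(pull_resc X F).Fs fun _ => trivial, ← exp_half_sq]; simp [rescS, Sim.aff, exp_half_sq]

theorem resc_Fg (τ : ℝ) : (F.resc X).Fs τ 0 1 = F.Fg X (Real.exp (-τ / 2)) := by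
  rw [resc_Fs, Mv.Fg, exp_half_sq]; simp

theorem resc_reach (hp : p ∈ (F.resc X).M) (ρ : ℝ) :
    (F.resc X).Reach p ρ ↔ F.Reach (rmap X p) (Real.exp (-p.2 / 2) * ρ) :=
  ⟨(pull_resc X F).reach_of hp fun _ => trivial, (pull_resc X F).reach hp⟩

theorem resc_nJet (hF : F.Reg) (hp : p ∈ (F.resc X).M) {k : ℕ} {C : ℝ} :
    (F.resc X).NJet k (Real.exp (-p.2 / 2) ^ k * C) p ↔ F.NJet k C (rmap X p) :=
  (pull_resc X F).nJet0 hF rfl hp

theorem resc_int (τ : ℝ) (u : E → ℝ) : ∫ x, u (X.1 + Real.exp (-τ / 2) • x) ∂(F.resc X).mu τ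
    = Real.exp τ * ∫ x, u x ∂F.mu (X.2 - Real.exp (-τ)) := by
  have := (pull_resc X F).int (t := τ) (fun _ => trivial) u
  simp only [rescS, exp_half_sq, Real.exp_neg, inv_inv] at this
  simpa [Sim.aff, Real.exp_neg] using this

theorem resc_proper {I : Set ℝ} (hF : F.Proper (univ ×ˢ I)) :
    (F.resc X).Proper (univ ×ˢ {τ | X.2 - Real.exp (-τ) ∈ I}) := fun p hp hI =>
  (pull_resc X F).proper hF p hp ⟨trivial, trivial, hI.2⟩

/-- a slice of the rescaled flow is the slice `-1` of a parabolic rescaling -/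
theorem resc_sl (τ : ℝ) : (F.resc X).sl τ = (F.para X (Real.exp (τ / 2))).sl (-1) := by
  have e : Real.exp (τ / 2) ^ 2 = Real.exp τ := by simpa using exp_half_sq (-τ)
  ext x
  simp [Mv.sl, Mv.resc, Mv.para, rmap, e, neg_div, Real.exp_neg, sub_eq_add_neg]

end resc

/-! ### `unresc` -/

def unrS : Sim := ⟨0, LinearIsometryEquiv.refl ℝ E, fun t => (√(-t))⁻¹, fun t => -Real.log (-t),
  {p | p.2 < 0}⟩

theorem unrS_map : unrS.map = umap := funext fun p => by simp [unrS, Sim.map, umap]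

theorem unrS_full (t : ℝ) : unrS.Full t ∨ ∀ x, (x, t) ∉ unrS.U :=
  (lt_or_ge t 0).imp (fun h _ => h) fun h _ => h.not_gt

theorem pull_unresc (F : Mv) : Pull unrS F F.unresc where
  ok := ⟨isOpen_lt continuous_snd continuous_const,
    fun _ hp => inv_pos.2 (Real.sqrt_pos.2 (neg_pos.2 hp)),
    fun _ hp => (contDiffAt_id.neg.sqrt (neg_pos.2 hp).ne').inv
      (Real.sqrt_pos.2 (neg_pos.2 hp)).ne',
    fun _ hp => (contDiffAt_id.neg.log (neg_pos.2 hp).ne').neg⟩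
  mem p := by rw [unrS_map]; rfl
  n_eq _ _ := by rw [unrS_map]; rfl
  V_eq p hp := by
    have h0 : 0 < -p.2 := neg_pos.2 hp.1
    have hs := Real.sqrt_pos.2 h0
    have h1 : deriv unrS.θ p.2 = -(-1 / -p.2) := ((hasDerivAt_neg p.2).log h0.ne').neg.deriv
    have h2 : deriv unrS.c p.2 = -(-1 / (2 * √(-p.2))) / √(-p.2) ^ 2 :=
      (((hasDerivAt_neg p.2).sqrt h0.ne').inv hs.ne').deriv
    rw [h1, h2, unrS_map]
    simp only [Mv.unresc, unrS, LinearIsometryEquiv.coe_refl, id, real_inner_comm p.1]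
    rw [show (umap p).1 = (√(-p.2))⁻¹ • p.1 from rfl, real_inner_smul_left,
      show -1 / -p.2 = -1 / √(-p.2) ^ 2 by rw [Real.sq_sqrt h0.le], real_inner_comm]
    field_simp

theorem unr_reg (hF : F.Reg) : F.unresc.Reg := (pull_unresc F).reg hF

theorem unr_H (hF : F.Reg) (hp : p ∈ F.unresc.M) : F.unresc.H p = (√(-p.2))⁻¹ * F.H (umap p) := by
  rw [(pull_unresc F).H hF hp, unrS_map]; rfl

theorem unr_A2 (hF : F.Reg) (hp : p ∈ F.unresc.M) : F.unresc.A2 p = (-p.2)⁻¹ * F.A2 (umap p) := by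
  rw [(pull_unresc F).A2 hF hp, unrS_map]
  simp only [unrS, inv_pow, Real.sq_sqrt (neg_pos.2 hp.1).le]

theorem unr_mcf (hF : F.IsRMCF) : F.unresc.IsMCF := by
  refine ⟨unr_reg hF.1, fun p hp => ?_⟩
  rw [unr_H hF.1 hp]
  simp only [Mv.unresc, hF.2 _ hp.2, Mv.shr, Mv.xn, sub_zero]
  ring

theorem shr_rmcf (hS : F.IsShr) : F.IsRMCF :=
  ⟨hS.reg, fun p hp => by rw [hS.st.V_eq, hS.eq p hp, neg_zero]⟩

theorem unr_nJet (hF : F.Reg) (hp : p ∈ F.unresc.M) {k : ℕ} {C : ℝ} :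
    F.unresc.NJet k ((√(-p.2))⁻¹ ^ k * C) p ↔ F.NJet k C (umap p) := by
  rw [← unrS_map]; exact (pull_unresc F).nJet0 hF rfl hp

theorem unr_ar {Λ : ℝ} (hF : F.AR Λ) : F.unresc.AR Λ := (pull_unresc F).ar unrS_full hF

theorem unr_lgb {C : ℝ} (hF : F.Reg) (hL : LGB F C) : LGB F.unresc C :=
  (pull_unresc F).lgb hF unrS_full hL

theorem unr_fl {Λ : ℝ} (hS : F.IsShr) (hA : F.AR Λ) : Fl F.unresc (Iio 0) Λ :=
  ⟨unr_mcf (shr_rmcf hS), fun _ hp => hp.1, fun p hp hI => (pull_unresc F).proper (Ω := univ)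
    (fun _ hq _ => hS.closed.closure_subset hq) p hp ⟨hI.2, trivial⟩, unr_ar hA⟩

theorem umap_rmap (p : ST) : umap (rmap 0 p) = p := by
  have : √(Real.exp (-p.2)) = Real.exp (-p.2 / 2) := by
    rw [← exp_half_sq, Real.sqrt_sq (Real.exp_pos _).le]
  simp [umap, rmap, this, smul_smul]

theorem rmap_umap (hp : p.2 < 0) : rmap 0 (umap p) = p := by
  have h0 : 0 < -p.2 := neg_pos.2 hp
  have : Real.exp (Real.log (-p.2) / 2) = √(-p.2) := by
    rw [Real.exp_half, Real.exp_log h0]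
  refine Prod.ext ?_ ?_
  · simp only [umap, rmap, neg_neg, this, smul_smul, mul_inv_cancel₀ (Real.sqrt_pos.2 h0).ne']
    simp
  · simp only [umap, rmap, neg_neg, Real.exp_log h0]; simp

theorem unr_resc (F : Mv) : F.unresc.resc 0 = F := by
  refine mv_ext (fun p => ?_) (fun p => ?_) fun p => ?_
  · simp only [Mv.resc, Mv.unresc, mem_ofPred_eq, umap_rmap]
    simp [rmap, Real.exp_pos]
  · simp only [Mv.resc, Mv.unresc, umap_rmap]
  · have : √(-(rmap 0 p).2) = Real.exp (-p.2 / 2) := by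
      rw [← Real.sqrt_sq (Real.exp_pos (-p.2 / 2)).le, exp_half_sq]; simp [rmap]
    simp only [Mv.resc, Mv.unresc, umap_rmap, this]
    have := (Real.exp_pos (-p.2 / 2)).ne'
    field_simp
    ring

theorem ar_of_unr {Λ : ℝ} (h : F.unresc.AR Λ) : F.AR Λ := unr_resc F ▸ resc_ar 0 h

theorem resc_unr_mem (F : Mv) (p : ST) : p ∈ (F.resc 0).unresc.M ↔ p ∈ F.M ∧ p.2 < 0 :=
  ⟨fun h => ⟨rmap_umap h.1 ▸ h.2, h.1⟩, fun h => ⟨h.2, by
    change rmap 0 (umap p) ∈ F.M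
    rw [rmap_umap h.2]; exact h.1⟩⟩

theorem unr_dev (hS : F.IsShr) (hp : p ∈ F.unresc.M) : F.unresc.dev 0 p = 0 := by
  have h1 := resc_shr 0 (unr_reg hS.reg) (p := umap p) (by rw [unr_resc]; exact hp.2)
  rw [unr_resc, hS.eq _ hp.2, rmap_umap hp.1] at h1
  exact (mul_eq_zero.1 h1.symm).resolve_left (Real.exp_pos _).ne'

/-- the flow of a static surface is invariant under parabolic dilations -/
theorem unr_para (hS : F.Static) {lam : ℝ} (hl : 0 < lam) : F.unresc.para 0 lam = F.unresc := by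
  have e : ∀ p : ST, (umap (lam⁻¹ • p.1, p.2 / lam ^ 2)).1 = (umap p).1 := fun p => by
    simp only [umap, ← neg_div, Real.sqrt_div' _ (sq_nonneg lam), Real.sqrt_sq hl.le, smul_smul]
    congr 1
    field_simp
  have en : ∀ p q : ST, p.1 = q.1 → F.n p = F.n q := fun p q h =>
    (hS.n_eq p.1 p.2).trans (h ▸ (hS.n_eq q.1 q.2).symm)
  refine mv_ext (fun p => ?_) (fun p => ?_) fun p => ?_
  · simp only [Mv.para, Mv.unresc, mem_ofPred_eq, Prod.fst_zero, Prod.snd_zero, zero_add]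
    rw [div_lt_iff₀ (by positivity), zero_mul, ← Prod.mk.eta (p := umap _), hS.mem, e,
      ← hS.mem _ (umap p).2]
  · simp only [Mv.para, Mv.unresc, Prod.fst_zero, Prod.snd_zero, zero_add]
    exact en _ _ (e p)
  · simp only [Mv.para, Mv.unresc, Prod.fst_zero, Prod.snd_zero, zero_add, hS.V_eq, e,
      en _ _ (e p), ← neg_div, Real.sqrt_div' _ (sq_nonneg lam), Real.sqrt_sq hl.le]
    field_simp

/-! ### `flip` -/

theorem flip_loc {W : Set ST} {φ : ST → ℝ} (h : F.Loc W φ) : F.flip.Loc W fun q => -φ q := by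
  have hg : ∀ q : ST, gradX (fun q => -φ q) q.1 q.2 = -gradX φ q.1 q.2 := fun q => by
    simp [gradX, gradient, fderiv_fun_neg]
  refine ⟨h.isOpen, h.sm.neg, fun q hq => by simpa [hg] using h.ne q hq,
    fun q hq => by simpa [Mv.flip] using h.mem q hq, fun q hq hM => ?_, fun q hq hM => ?_⟩
  · simp [hg, Mv.flip, h.n_eq q hq hM]
  · simp [hg, Mv.flip, h.V_eq q hq hM, dT, neg_div]

theorem flip_reg (hF : F.Reg) : F.flip.Reg := fun p hp => by
  obtain ⟨W, φ, hW, h⟩ := hF p hp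
  exact ⟨W, _, hW, flip_loc h⟩

theorem flip_D (F : Mv) : F.flip.D = F.D := by
  funext a f p
  simp [D_def, Mv.td, Mv.PL, Mv.flip]

theorem flip_Dt (F : Mv) : F.flip.Dt = F.Dt := by
  funext f p
  simp [Mv.Dt, Mv.td, Mv.flip]

theorem flip_DL (F : Mv) (l : List (Fin 3)) (f : ST → ℝ) : F.flip.DL l f = F.DL l f := by
  simp only [Mv.DL, flip_D]

theorem flip_pre (F : Mv) : F.flip.pre = F.pre := by
  have := flip_D F
  simp only [Mv.pre, N222.Pre.mk.injEq, true_and]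
  exact this

theorem DL_neg (hF : F.Reg) (hf : F.Sm f) (l : List (Fin 3)) (hp : p ∈ F.M) :
    F.DL l (fun q => -f q) p = -F.DL l f p := by
  simpa using DL_lin hF {()} (fun _ => -1) (f := fun _ => f) (fun _ _ => hf) l p hp

theorem flip_DL_nu (hF : F.Reg) (hp : p ∈ F.M) (l : List (Fin 3)) (a : Fin 3) :
    F.flip.DL l (F.flip.nu a) p = -F.DL l (F.nu a) p := by
  rw [flip_DL, ← DL_neg hF (sm_nu hF a) l hp]; rfl

theorem flip_A (hF : F.Reg) (hp : p ∈ F.M) (a b : Fin 3) : F.flip.A a b p = -F.A a b p :=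
  flip_DL_nu hF hp [a] b

theorem flip_H (hF : F.Reg) (hp : p ∈ F.M) : F.flip.H p = -F.H p := by
  simp only [Mv.H, Finset.sum_apply, flip_A hF hp, Finset.sum_neg_distrib]

theorem flip_A2 (hF : F.Reg) (hp : p ∈ F.M) : F.flip.A2 p = F.A2 p := by
  simp only [Mv.A2, Finset.sum_apply, Pi.mul_apply, flip_A hF hp, neg_mul_neg]

theorem flip_shr (hF : F.Reg) (hp : p ∈ F.M) : F.flip.shr p = -F.shr p := by
  rw [Mv.shr, Mv.shr, flip_H hF hp]; simp [Mv.xn, Mv.flip]; ring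

theorem flip_mcf (hF : F.IsMCF) : F.flip.IsMCF :=
  ⟨flip_reg hF.1, fun p hp => by rw [flip_H hF.1 hp, ← hF.2 p hp]; simp [Mv.flip, hF.2 p hp]⟩

theorem flip_isShr (hF : F.IsShr) : F.flip.IsShr :=
  ⟨flip_reg hF.reg, ⟨hF.st.mem, fun x t => congrArg Neg.neg (hF.st.n_eq x t),
    fun p => by simp [Mv.flip, hF.st.V_eq]⟩, hF.closed,
    fun p hp => by rw [flip_shr hF.reg hp, hF.eq p hp, neg_zero]⟩

theorem flip_nJet (hF : F.Reg) (hp : p ∈ F.M) {k : ℕ} {C : ℝ} : F.flip.NJet k C p ↔ F.NJet k C p :=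
  forall_congr' fun a => forall_congr' fun l => forall_congr' fun _ => by
    rw [flip_DL_nu hF hp, abs_neg]

theorem flip_reach (F : Mv) (p : ST) (ρ : ℝ) : F.flip.Reach p ρ ↔ F.Reach p ρ :=
  forall_congr' fun y => forall_congr' fun _ => by
    simp [Mv.flip, sub_eq_add_neg, and_comm]

theorem flip_fl {I : Set ℝ} {Λ : ℝ} (hF : Fl F I Λ) : Fl F.flip I Λ :=
  ⟨flip_mcf hF.mcf, hF.time, hF.proper, hF.ar⟩

theorem flip_cl {I : Set ℝ} {Λ : ℝ} {m : Md} (hF : Cl F I Λ m) : Cl F.flip I Λ m :=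
  ⟨hF.tm, flip_fl hF.fl, fun R y r hr hI hd x hx hy =>
    (flip_reach F _ _).2 (hF.as R y r hr hI hd x hx hy)⟩

theorem flip_unresc (F : Mv) : F.flip.unresc = F.unresc.flip :=
  mv_ext (fun _ => Iff.rfl) (fun _ => rfl) fun p => by simp [Mv.flip, Mv.unresc]; ring

theorem flip_sh {Λ : ℝ} {m : Md} (hS : Sh F Λ m) : Sh F.flip Λ m :=
  ⟨flip_isShr hS.shr, by rw [flip_unresc]; exact flip_cl hS.cl⟩

theorem flip_para (F : Mv) (X : ST) (lam : ℝ) : F.flip.para X lam = (F.para X lam).flip :=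
  mv_ext (fun _ => Iff.rfl) (fun _ => rfl) fun p => by simp [Mv.flip, Mv.para, neg_div]

theorem flip_flip (F : Mv) : F.flip.flip = F := by simp [Mv.flip]

theorem flip_conv {α : Type} {l : Filter α} {Fk : α → Mv} {Ω : Set ST} (hc : Conv l Fk F Ω) :
    Conv l (fun k => (Fk k).flip) F.flip Ω := by
  refine ⟨hc.away, fun p hp hM => ?_⟩
  obtain ⟨W, φ, φk, hW, hl, hlk, ht⟩ := hc.near p hp hM
  refine ⟨W, _, fun k q => -φk k q, hW, flip_loc hl, hlk.mono fun k hk => flip_loc hk, fun m => ?_⟩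
  have e : ∀ ψ : ST → ℝ, iteratedFDeriv ℝ m (fun q => -ψ q) = -iteratedFDeriv ℝ m ψ := fun ψ =>
    funext fun q => iteratedFDeriv_neg_apply (f := ψ)
  simp only [e]
  exact (ht m).neg

end Crest.Agent.N250.Tr

end
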